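import Vale.Agent.P011.H373.S1
import Vale.Agent.P011.Even.Defs

/-!
A unitary element commuting with `y` with given reduced norm.
-/

open NumberField IsDedekindDomain Module

namespace Vale.Agent.P011.H211

open H775 (Cub)
open H487 (LocD)

/-- **S2**: the norm theorem for the unitary elements of the cubic field `K[y]`. -/
theorem s2_of {K D : Type} [Field K] [NumberField K] [StarRing K] [DivisionRing D] [StarRing D]
    [Algebra K D] (C : Cub K D) (hsm : ∀ (x : K) (y : D), star (x • y) = star x • star y)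
    (hsN : ∀ x : D, C.N (star x) = star (C.N x)) {y : D} (hy : ∀ c : K, y ≠ c • (1 : D))
    (hc : Commute (star y) y) {b : K} (hb : b * star b = 1)
    (h : ∀ V : HeightOneSpectrum (𝓞 K), LocD C y V b) :
    ∃ e : D, e * star e = 1 ∧ Commute e y ∧ C.N e = b := by
  have hb0 : b ≠ 0 := left_ne_zero_of_mul_eq_one hb
  obtain ⟨c, hN⟩ := H373.exists_N C hy hb0 h
  set Y : D := c 0 • (1 : D) + c 1 • y + c 2 • (y * y) with hY
  have hY0 : Y ≠ 0 := fun h0 => by
    rw [h0, C.N_zero] at hN
    exact hb0 hN.symm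
  have hsY0 : star Y ≠ 0 := star_ne_zero.mpr hY0
  -- everything commutes
  have hpoly : ∀ {z : D}, Commute z y → Commute z Y := by
    intro z hz
    rw [hY]
    exact ((((Commute.one_right z).smul_right _).add_right (hz.smul_right _)).add_right
      ((hz.mul_right hz).smul_right _))
  have hpoly' : ∀ {z : D}, Commute z (star y) → Commute z (star Y) := by
    intro z hz
    rw [hY, star_add, star_add, hsm, hsm, hsm, star_one, star_mul]
    exact ((((Commute.one_right z).smul_right _).add_right (hz.smul_right _)).add_right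
      ((hz.mul_right hz).smul_right _))
  have h1 : Commute y Y := hpoly (Commute.refl y)
  have h2 : Commute y (star Y) := hpoly' hc.symm
  have h3 : Commute (star Y) Y := hpoly h2.symm
  refine ⟨b • (star Y * Y⁻¹), ?_, ?_, ?_⟩
  · rw [hsm, star_mul, star_inv₀, star_star, smul_mul_smul_comm, hb, one_smul]
    calc star Y * Y⁻¹ * ((star Y)⁻¹ * Y) = star Y * (Y⁻¹ * (star Y)⁻¹) * Y := by
          simp only [mul_assoc]
      _ = star Y * ((star Y)⁻¹ * Y⁻¹) * Y := by
          rw [← mul_inv_rev, ← mul_inv_rev, h3.eq]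
      _ = 1 := by
          rw [← mul_assoc, mul_inv_cancel₀ hsY0, one_mul, inv_mul_cancel₀ hY0]
  · exact ((h2.symm.mul_left h1.symm.inv_left₀)).smul_left b
  · rw [C.N_smul, C.N_mul, C.N_inv, hsN, hN]
    have h4 : star b = b⁻¹ := (eq_inv_of_mul_eq_one_right hb)
    rw [h4]
    field_simp

section setting

variable {k K D : Type} [Field k] [Field K] [NumberField K] [StarRing K]
  [DivisionRing D] [StarRing D] [Algebra k K] [Algebra K D] {d : kˣ} {s : K}

/-- **S2** in the standing setting. -/
theorem s2 (hS : Even.Setting k K D d s) (hdeg : finrank K D = 3 ^ 2) (C : Cub K D) {y : D}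
    (hy : ∀ c : K, y ≠ c • (1 : D)) (hc : Commute (star y) y) {b : K} (hb : b * star b = 1)
    (h : ∀ V : HeightOneSpectrum (𝓞 K), LocD C y V b) :
    ∃ e : D, e * star e = 1 ∧ Commute e y ∧ C.N e = b := by
  have := hS.fin
  have := hS.cen
  have hss : ∀ c : K, star (algebraMap K D c) = algebraMap K D (star c) := by
    intro c
    rw [Algebra.algebraMap_eq_smul_one, hS.star_smul, star_one, Algebra.algebraMap_eq_smul_one]
  exact s2_of C hS.star_smul (fun x => (C.star_coeff hdeg hss x).2.2) hy hc hb h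

/-- **S2** for unitary `y`. -/
theorem s2_unitary (hS : Even.Setting k K D d s) (hdeg : finrank K D = 3 ^ 2) (C : Cub K D) {y : D}
    (hy : ∀ c : K, y ≠ c • (1 : D)) (hu : y * star y = 1) {b : K} (hb : b * star b = 1)
    (h : ∀ V : HeightOneSpectrum (𝓞 K), LocD C y V b) :
    ∃ e : D, e * star e = 1 ∧ Commute e y ∧ C.N e = b := by
  refine s2 hS hdeg C hy ?_ hb h
  have h1 : star y = y⁻¹ := eq_inv_of_mul_eq_one_right hu
  rw [h1]
  exact (Commute.refl y).inv_left₀

/-- **S2** for symmetric `y`. -/
theorem s2_symm (hS : Even.Setting k K D d s) (hdeg : finrank K D = 3 ^ 2) (C : Cub K D) {y : D}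
    (hy : ∀ c : K, y ≠ c • (1 : D)) (hu : star y = y) {b : K} (hb : b * star b = 1)
    (h : ∀ V : HeightOneSpectrum (𝓞 K), LocD C y V b) :
    ∃ e : D, e * star e = 1 ∧ Commute e y ∧ C.N e = b := by
  refine s2 hS hdeg C hy ?_ hb h
  rw [hu]

end setting

end Vale.Agent.P011.H211
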