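import Vale.Agent.P011.H373.CubicNorm

/-!
Algebra of the Skolem equation `N(f) + Tr(A f) + G = 0` for a cubic field extension.
-/

open Module Polynomial
open scoped IntermediateField

namespace Vale.Agent.P011.H211

section cub

variable {κ N : Type} [Field κ] [Field N] [Algebra κ N]

/-- The norm of `c - z`. -/
theorem cub (h3 : finrank κ N = 3) (z : N) :
    ∃ s : κ, ∀ c : κ, Algebra.norm κ (algebraMap κ N c - z) =
      c ^ 3 - Algebra.trace κ N z * c ^ 2 + s * c - Algebra.norm κ z := by
  have hfd : FiniteDimensional κ N := Module.finite_of_finrank_pos (by omega)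
  let b : Basis (Fin 3) κ N := Module.finBasisOfFinrankEq κ N h3
  set M := Algebra.leftMulMatrix b z with hM
  refine ⟨M 0 0 * M 1 1 - M 0 1 * M 1 0 + (M 0 0 * M 2 2 - M 0 2 * M 2 0) +
    (M 1 1 * M 2 2 - M 1 2 * M 2 1), fun c => ?_⟩
  rw [Algebra.norm_eq_matrix_det b, Algebra.norm_eq_matrix_det b, Algebra.trace_eq_matrix_trace b,
    map_sub, AlgHom.commutes, ← hM, Matrix.det_fin_three, Matrix.det_fin_three,
    Matrix.trace_fin_three]
  simp [Matrix.algebraMap_matrix_apply]
  ring

theorem norm_neg (h3 : finrank κ N = 3) (z : N) : Algebra.norm κ (-z) = -Algebra.norm κ z := by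
  rw [← neg_one_mul, map_mul]
  have h : (-1 : N) = algebraMap κ N (-1) := by simp
  rw [h, Algebra.norm_algebraMap, h3]
  ring

/-- The norm of `c + z`. -/
theorem cub_add (h3 : finrank κ N = 3) (z : N) :
    ∃ s : κ, ∀ c : κ, Algebra.norm κ (algebraMap κ N c + z) =
      c ^ 3 + Algebra.trace κ N z * c ^ 2 + s * c + Algebra.norm κ z := by
  obtain ⟨s, hs⟩ := cub h3 (-z)
  refine ⟨s, fun c => ?_⟩
  have h := hs c
  rw [sub_neg_eq_add, map_neg, norm_neg h3] at h
  rw [h]
  ring

end cub

/-- `N` is the compositum of the cubic extension `F / k` and of `κ / k`, linearly disjoint. -/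
structure Bc (k F κ N : Type) [Field k] [Field F] [Field κ] [Field N] [Algebra k F] [Algebra k κ]
    [Algebra κ N] [Algebra k N] [IsScalarTower k κ N] where
  φ : F →ₐ[k] N
  hF : finrank k F = 3
  hN : finrank κ N = 3
  hn : ∀ e : F, Algebra.norm κ (φ e) = algebraMap k κ (Algebra.norm k e)

namespace Bc

variable {k F κ N : Type} [Field k] [CharZero k] [Field F] [Field κ] [Field N] [Algebra k F]
  [Algebra k κ] [Algebra κ N] [Algebra k N] [IsScalarTower k κ N]

omit [CharZero k] in
theorem φ_map (B : Bc k F κ N) (c : k) :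
    B.φ (algebraMap k F c) = algebraMap κ N (algebraMap k κ c) := by
  rw [AlgHom.commutes, ← IsScalarTower.algebraMap_apply]

/-- The norm of `c + z` for `c` in `κ` and `z` in `F`. -/
theorem cub_add (B : Bc k F κ N) (z : F) :
    ∃ s : k, (∀ c : k, Algebra.norm k (algebraMap k F c + z) =
      c ^ 3 + Algebra.trace k F z * c ^ 2 + s * c + Algebra.norm k z) ∧
      ∀ c : κ, Algebra.norm κ (algebraMap κ N c + B.φ z) =
        c ^ 3 + algebraMap k κ (Algebra.trace k F z) * c ^ 2 + algebraMap k κ s * c +
          algebraMap k κ (Algebra.norm k z) := by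
  obtain ⟨s, hs⟩ := H211.cub_add B.hF z
  obtain ⟨s', hs'⟩ := H211.cub_add B.hN (B.φ z)
  have hc : CharZero κ := charZero_of_injective_algebraMap (algebraMap k κ).injective
  have key : ∀ c : k, Algebra.norm κ (algebraMap κ N (algebraMap k κ c) + B.φ z) =
      algebraMap k κ (Algebra.norm k (algebraMap k F c + z)) := by
    intro c
    rw [← B.φ_map, ← map_add, B.hn]
  have h1 := key 1
  have h2 := key (-1)
  rw [hs, hs', B.hn] at h1 h2
  simp only [map_add, map_mul, map_pow, map_one, map_neg] at h1 h2
  have hT : Algebra.trace κ N (B.φ z) = algebraMap k κ (Algebra.trace k F z) := by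
    have h4 : (2 : κ) * Algebra.trace κ N (B.φ z) = 2 * algebraMap k κ (Algebra.trace k F z) := by
      linear_combination h1 + h2
    exact mul_left_cancel₀ two_ne_zero h4
  have hS : s' = algebraMap k κ s := by
    have h4 : (2 : κ) * s' = 2 * algebraMap k κ s := by
      linear_combination h1 - h2
    exact mul_left_cancel₀ two_ne_zero h4
  refine ⟨s, hs, fun c => ?_⟩
  rw [hs', B.hn, hT, hS]

theorem trace_φ (B : Bc k F κ N) (z : F) :
    Algebra.trace κ N (B.φ z) = algebraMap k κ (Algebra.trace k F z) := by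
  obtain ⟨s, hs⟩ := H211.cub_add B.hF z
  obtain ⟨s', hs'⟩ := H211.cub_add B.hN (B.φ z)
  have hc : CharZero κ := charZero_of_injective_algebraMap (algebraMap k κ).injective
  have key : ∀ c : k, Algebra.norm κ (algebraMap κ N (algebraMap k κ c) + B.φ z) =
      algebraMap k κ (Algebra.norm k (algebraMap k F c + z)) := by
    intro c
    rw [← B.φ_map, ← map_add, B.hn]
  have h1 := key 1
  have h2 := key (-1)
  rw [hs, hs', B.hn] at h1 h2
  simp only [map_add, map_mul, map_pow, map_one, map_neg] at h1 h2
  have h4 : (2 : κ) * Algebra.trace κ N (B.φ z) = 2 * algebraMap k κ (Algebra.trace k F z) := by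
    linear_combination h1 + h2
  exact mul_left_cancel₀ two_ne_zero h4

end Bc

section solve

variable {k F : Type} [Field k] [CharZero k] [Field F] [Algebra k F]

/-- The explicit solution of the Skolem equation. -/
theorem solve_alg (hF : finrank k F = 3) {A : F} (hA : A ≠ 0) (G : k) (r : F) (s : k)
    (hs : ∀ c : k, Algebra.norm k (algebraMap k F c + r) =
      c ^ 3 + Algebra.trace k F r * c ^ 2 + s * c + Algebra.norm k r)
    (h : G * (s + (G ^ 2 + 4 * Algebra.norm k A)) +
      (Algebra.norm k r + Algebra.trace k F r * (G ^ 2 + 4 * Algebra.norm k A)) = 0) :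
    ∃ f : F, Algebra.norm k f + Algebra.trace k F (A * f) + G = 0 := by
  have hfd : FiniteDimensional k F := Module.finite_of_finrank_pos (by omega)
  have hNA : Algebra.norm k A ≠ 0 := by rwa [Ne, Algebra.norm_eq_zero_iff]
  have hcF : CharZero F := charZero_of_injective_algebraMap (algebraMap k F).injective
  set f : F := algebraMap k F (-1 / 2) * (algebraMap k F G + r) / A with hf
  refine ⟨f, ?_⟩
  have h1 : A * f = algebraMap k F (-1 / 2) * (algebraMap k F G + r) := by
    rw [hf]; field_simp
  have h2 : Algebra.norm k A * Algebra.norm k f =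
      (-1 / 2) ^ 3 * (G ^ 3 + Algebra.trace k F r * G ^ 2 + s * G + Algebra.norm k r) := by
    rw [← map_mul, h1, map_mul, Algebra.norm_algebraMap, hF, hs]
  have h3 : Algebra.trace k F (A * f) = (-1 / 2) * (3 * G + Algebra.trace k F r) := by
    rw [h1, ← Algebra.smul_def, map_smul, smul_eq_mul, map_add, Algebra.trace_algebraMap, hF]
    simp
  have h4 : Algebra.norm k A * (Algebra.norm k f + Algebra.trace k F (A * f) + G) = 0 := by
    rw [h3, mul_add, mul_add, h2]
    linear_combination (-1 / 8) * h
  exact (mul_eq_zero.mp h4).resolve_left hNA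

/-- The case of a vanishing discriminant. -/
theorem solve_zero (hF : finrank k F = 3) {A : F} (hA : A ≠ 0) (G : k)
    (hH : G ^ 2 + 4 * Algebra.norm k A = 0) :
    ∃ f : F, Algebra.norm k f + Algebra.trace k F (A * f) + G = 0 := by
  have hfd : FiniteDimensional k F := Module.finite_of_finrank_pos (by omega)
  obtain ⟨s, hs⟩ := cub_add hF (0 : F)
  refine solve_alg hF hA G 0 s hs ?_
  have h0 : s = 0 := by
    have h1 := hs 1
    rw [add_zero, Algebra.norm_algebraMap, Algebra.norm_zero] at h1
    simpa using h1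
  rw [hH, h0, Algebra.norm_zero]
  ring

/-- The discriminant is a square. -/
theorem solve_split (hF : finrank k F = 3) {A : F} (hA : A ≠ 0) (G w : k) (hw : w ≠ 0)
    (hH : w ^ 2 = G ^ 2 + 4 * Algebra.norm k A) {y : F}
    (hy : 2 * Algebra.norm k y = w - G) :
    ∃ f : F, Algebra.norm k f + Algebra.trace k F (A * f) + G = 0 := by
  have hfd : FiniteDimensional k F := Module.finite_of_finrank_pos (by omega)
  have hNA : Algebra.norm k A ≠ 0 := by rwa [Ne, Algebra.norm_eq_zero_iff]
  have hcF : CharZero F := charZero_of_injective_algebraMap (algebraMap k F).injective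
  have hNy : Algebra.norm k y ≠ 0 := by
    intro h0
    rw [h0, mul_zero] at hy
    have h1 : w = G := by linear_combination -hy
    rw [h1] at hH
    have : (4 : k) * Algebra.norm k A = 0 := by linear_combination -hH
    exact hNA ((mul_eq_zero.mp this).resolve_left (by norm_num))
  have hy0 : y ≠ 0 := by
    rintro rfl
    exact hNy Algebra.norm_zero
  set y2 : F := -A / y with hy2
  have hNy2 : 2 * Algebra.norm k y2 = -w - G := by
    have h1 : Algebra.norm k y2 * Algebra.norm k y = -Algebra.norm k A := by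
      rw [← map_mul, hy2, div_mul_cancel₀ _ hy0, norm_neg hF]
    have h2 : (w - G) * (2 * Algebra.norm k y2) = (w - G) * (-w - G) := by
      rw [← hy]
      linear_combination 4 * h1 + hH + (w + G) * hy
    refine mul_left_cancel₀ ?_ h2
    rw [← hy]
    exact mul_ne_zero two_ne_zero hNy
  set p : F := (y + y2) / 2 with hp
  set q : F := (y - y2) / (2 * algebraMap k F w) with hq
  have hwF : algebraMap k F w ≠ 0 := (_root_.map_ne_zero _).mpr hw
  have hyy : y ≠ y2 := by
    intro h0
    rw [← h0, hy] at hNy2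
    have : 2 * w = 0 := by linear_combination hNy2
    exact hw ((mul_eq_zero.mp this).resolve_left two_ne_zero)
  have hq0 : q ≠ 0 := by
    rw [hq]
    exact div_ne_zero (sub_ne_zero.mpr hyy) (mul_ne_zero two_ne_zero hwF)
  set r : F := p / q with hr
  have e1 : y = q * (algebraMap k F w + r) := by
    rw [hr, mul_add, mul_div_cancel₀ _ hq0, hp, hq]
    field_simp
    ring
  have e2 : y2 = q * (algebraMap k F (-w) + r) := by
    rw [hr, mul_add, mul_div_cancel₀ _ hq0, hp, hq, map_neg]
    field_simp
    ring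
  obtain ⟨s, hs⟩ := cub_add hF r
  refine solve_alg hF hA G r s hs ?_
  rw [e1, map_mul, hs] at hy
  rw [e2, map_mul, hs] at hNy2
  have hNq : Algebra.norm k q ≠ 0 := by rwa [Ne, Algebra.norm_eq_zero_iff]
  rw [← hH]
  have h1 : Algebra.norm k q * w * (2 * (G * (s + w ^ 2) +
      (Algebra.norm k r + Algebra.trace k F r * w ^ 2))) = 0 := by
    linear_combination ((w + G) / 2) * hy + ((w - G) / 2) * hNy2
  have h2 := (mul_eq_zero.mp h1).resolve_left (mul_ne_zero hNq hw)
  exact (mul_eq_zero.mp h2).resolve_left two_ne_zero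

/-- The discriminant is not a square. -/
theorem solve_quad {κ N : Type} [Field κ] [Field N] [Algebra k κ] [Algebra κ N] [Algebra k N]
    [IsScalarTower k κ N] (B : Bc k F κ N) {A : F} (hA : A ≠ 0) (G : k)
    (hns : ¬ IsSquare (G ^ 2 + 4 * Algebra.norm k A)) {w : κ}
    (hH : w ^ 2 = algebraMap k κ (G ^ 2 + 4 * Algebra.norm k A))
    (hdec : ∀ x : N, ∃ p q : F, x = B.φ p + algebraMap κ N w * B.φ q) {y : N}
    (hy : 2 * Algebra.norm κ y = w - algebraMap k κ G) :
    ∃ f : F, Algebra.norm k f + Algebra.trace k F (A * f) + G = 0 := by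
  have hF := B.hF
  have hfd : FiniteDimensional k F := Module.finite_of_finrank_pos (by omega)
  have hck : CharZero κ := charZero_of_injective_algebraMap (algebraMap k κ).injective
  obtain ⟨p, q, rfl⟩ := hdec y
  have hwk : ∀ c : k, algebraMap k κ c ≠ w := by
    intro c hc
    apply hns
    refine ⟨c, ?_⟩
    apply (algebraMap k κ).injective
    rw [← hH, ← hc, ← map_pow, pow_two]
  have hq0 : q ≠ 0 := by
    rintro rfl
    rw [map_zero, mul_zero, add_zero, B.hn] at hy
    apply hwk (2 * Algebra.norm k p + G)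
    rw [map_add, map_mul, map_ofNat]
    linear_combination hy
  set r : F := p / q with hr
  have e1 : B.φ p + algebraMap κ N w * B.φ q = B.φ q * (algebraMap κ N w + B.φ r) := by
    have h1 : B.φ p = B.φ q * B.φ r := by
      rw [← map_mul, hr, mul_div_cancel₀ _ hq0]
    rw [h1]
    ring
  obtain ⟨s, hs, hs'⟩ := B.cub_add r
  refine solve_alg hF hA G r s hs ?_
  rw [e1, map_mul, B.hn, hs'] at hy
  have hNq : Algebra.norm k q ≠ 0 := by rwa [Ne, Algebra.norm_eq_zero_iff]
  set H := G ^ 2 + 4 * Algebra.norm k A with hHdef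
  set ν := Algebra.norm k q with hν
  have h1 : algebraMap k κ (2 * ν * (H + s) - 1) * w =
      - algebraMap k κ (2 * ν * (Algebra.trace k F r * H + Algebra.norm k r) + G) := by
    simp only [map_add, map_sub, map_mul, map_one, map_ofNat]
    linear_combination hy - (2 * algebraMap k κ ν * (w + algebraMap k κ (Algebra.trace k F r))) * hH
  have h2 : 2 * ν * (H + s) - 1 = 0 := by
    by_contra h0
    apply hwk (-(2 * ν * (Algebra.trace k F r * H + Algebra.norm k r) + G) /
      (2 * ν * (H + s) - 1))
    rw [map_div₀, map_neg, ← h1, mul_comm, mul_div_cancel_right₀]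
    exact (_root_.map_ne_zero _).mpr h0
  have h3 : 2 * ν * (Algebra.trace k F r * H + Algebra.norm k r) + G = 0 := by
    rw [h2, map_zero, zero_mul, eq_comm, neg_eq_zero] at h1
    exact (map_eq_zero _).mp h1
  have h4 : (2 * ν) * (G * (s + H) + (Algebra.norm k r + Algebra.trace k F r * H)) = 0 := by
    linear_combination G * h2 + h3
  exact (mul_eq_zero.mp h4).resolve_left (mul_ne_zero two_ne_zero hNq)

end solve

end Vale.Agent.P011.H211
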