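import Vale.Agent.P011.H211.SkTens

/-!
Quadratic descent for points of the Skolem equation.
-/

open Module Polynomial TensorProduct

namespace Vale.Agent.P011.H211

section desc

variable {k F : Type} [Field k] [Field F] [Algebra k F] {L Ω : Type} [Field L] [Algebra k L]
  [Field Ω] [Algebra k Ω] [Algebra L Ω] [IsScalarTower k L Ω]

/-- Coordinates in a quadratic extension. -/
theorem exists_coord (h2 : finrank L Ω = 2) : ∃ s : Ω, s ∉ (algebraMap L Ω).range ∧
    ∀ c : Ω, ∃ a b : L, c = algebraMap L Ω a + s * algebraMap L Ω b := by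
  have hfd : FiniteDimensional L Ω := Module.finite_of_finrank_pos (by omega)
  obtain ⟨s, hs⟩ : ∃ s : Ω, s ∉ (algebraMap L Ω).range := by
    by_contra hcon
    push Not at hcon
    have h3 := (LinearEquiv.ofBijective (Algebra.linearMap L Ω)
      ⟨(algebraMap L Ω).injective, fun x => hcon x⟩).finrank_eq
    rw [finrank_self, h2] at h3
    omega
  refine ⟨s, hs, fun c => ?_⟩
  have hli : LinearIndependent L ![(1 : Ω), s] := by
    rw [LinearIndependent.pair_iff]
    intro a b hab
    have hb : b = 0 := by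
      by_contra hb
      apply hs
      refine ⟨-a / b, ?_⟩
      rw [Algebra.smul_def, Algebra.smul_def, mul_one] at hab
      have hb' : algebraMap L Ω b ≠ 0 := (_root_.map_ne_zero _).mpr hb
      rw [map_div₀, map_neg]
      field_simp
      linear_combination -hab
    refine ⟨?_, hb⟩
    rw [hb, zero_smul, add_zero, Algebra.smul_def, mul_one, map_eq_zero] at hab
    exact hab
  have hsp := hli.span_eq_top_of_card_eq_finrank (by rw [h2]; rfl)
  have hc : c ∈ Submodule.span L (Set.range ![(1 : Ω), s]) := by rw [hsp]; trivial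
  rw [Matrix.range_cons, Matrix.range_cons, Matrix.range_empty, Set.union_empty,
    Set.singleton_union, Submodule.mem_span_pair] at hc
  obtain ⟨a, b, hab⟩ := hc
  refine ⟨a, b, ?_⟩
  rw [← hab, Algebra.smul_def, Algebra.smul_def, mul_one]
  ring

variable (bas : Basis (Fin 3) k F)

/-- The polynomial of a line. -/
noncomputable def linP (A : F) (G : k) (M0 M1 : Matrix (Fin 3) (Fin 3) L) : L[X] :=
  ((X : L[X]) • M1.map C + M0.map C).det + (C ((mA bas L A * M0).trace + algebraMap k L G) +
    C (mA bas L A * M1).trace * X)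

theorem linP_coeff (A : F) (G : k) (M0 M1 : Matrix (Fin 3) (Fin 3) L) :
    (linP bas A G M0 M1).coeff 3 = M1.det := by
  have h := coeff_det_X_add_C_card M1 M0
  rw [Fintype.card_fin] at h
  rw [linP, coeff_add, h, coeff_add, coeff_C, coeff_C_mul, coeff_X]
  simp

theorem linP_degree (A : F) (G : k) (M0 M1 : Matrix (Fin 3) (Fin 3) L) :
    (linP bas A G M0 M1).natDegree ≤ 3 := by
  have h := natDegree_det_X_add_C_le M1 M0
  rw [Fintype.card_fin] at h
  refine (natDegree_add_le _ _).trans (max_le h ?_)
  refine (natDegree_add_le _ _).trans (max_le ?_ ?_)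
  · rw [natDegree_C]; omega
  · exact ((natDegree_C_mul_le _ _).trans natDegree_X_le).trans (by omega)

theorem linP_eval (A : F) (G : k) (M0 M1 : Matrix (Fin 3) (Fin 3) L) (t : Ω) :
    aeval t (linP bas A G M0 M1) =
      Sc bas A G (M0.map (algebraMap L Ω) + t • M1.map (algebraMap L Ω)) := by
  have h1 : ((aeval t).mapMatrix ((X : L[X]) • M1.map C + M0.map C) : Matrix (Fin 3) (Fin 3) Ω) =
      M0.map (algebraMap L Ω) + t • M1.map (algebraMap L Ω) := by
    ext i j
    simp [add_comm]
    exact mul_comm _ _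
  have h2 : ∀ M : Matrix (Fin 3) (Fin 3) L, (mA bas Ω A * M.map (algebraMap L Ω)).trace =
      algebraMap L Ω (mA bas L A * M).trace := by
    intro M
    rw [← mA_map (L := L), ← Matrix.map_mul, AddMonoidHom.map_trace]
  rw [Sc, mul_add, Matrix.trace_add, Matrix.mul_smul, Matrix.trace_smul, h2, h2, ← h1,
    ← AlgHom.map_det, IsScalarTower.algebraMap_apply k L Ω, linP, map_add, map_add, map_mul,
    aeval_C, aeval_X, aeval_C, map_add (algebraMap L Ω), smul_eq_mul]
  ring

/-- **Quadratic descent.** -/
theorem quad_desc (hF : finrank k F = 3) (h2 : finrank L Ω = 2) (hno : ¬ Nonempty (F →ₐ[k] L))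
    {A : F} {G : k} (h : ∃ f : Ω ⊗[k] F, Algebra.norm Ω f +
      Algebra.trace Ω (Ω ⊗[k] F) ((1 ⊗ₜ A) * f) + algebraMap k Ω G = 0) :
    ∃ f : L ⊗[k] F, Algebra.norm L f + Algebra.trace L (L ⊗[k] F) ((1 ⊗ₜ A) * f) +
      algebraMap k L G = 0 := by
  have hfd : FiniteDimensional k F := Module.finite_of_finrank_pos (by omega)
  have hfd2 : FiniteDimensional L Ω := Module.finite_of_finrank_pos (by omega)
  let bas : Basis (Fin 3) k F := Module.finBasisOfFinrankEq k F hF
  rw [pt_iff bas] at h ⊢
  obtain ⟨x, hx⟩ := h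
  obtain ⟨s, hs, hc⟩ := exists_coord h2
  choose a b hab using fun i => hc (x i)
  have hmx : mx bas x = (mx bas a).map (algebraMap L Ω) + s • (mx bas b).map (algebraMap L Ω) := by
    rw [mx_map, mx_map, mx, mx, mx, Finset.smul_sum, ← Finset.sum_add_distrib]
    refine Finset.sum_congr rfl fun i _ => ?_
    rw [smul_smul, ← add_smul, ← hab]
  rw [hmx, ← linP_eval] at hx
  have hline : ∀ c : L, aeval c (linP bas A G (mx bas a) (mx bas b)) = 0 →
      ∃ x : Fin 3 → L, Sc bas A G (mx bas x) = 0 := by
    intro c h0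
    rw [linP_eval] at h0
    refine ⟨fun i => a i + c * b i, ?_⟩
    rw [← h0]
    congr 1
    rw [mx_map, mx_map, mx, mx, mx, Finset.smul_sum, ← Finset.sum_add_distrib]
    refine Finset.sum_congr rfl fun i _ => ?_
    rw [smul_smul, ← add_smul]
    rfl
  by_cases hb : b = 0
  · apply hline 0
    have h1 : mx bas b = 0 := by rw [hb, mx]; simp
    rw [linP_eval, h1] at hx ⊢
    have h3 : ((mx bas a).map (algebraMap L Ω) + s • (0 : Matrix (Fin 3) (Fin 3) L).map
        (algebraMap L Ω)) = ((mx bas a).map (algebraMap L L) +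
        (0 : L) • (0 : Matrix (Fin 3) (Fin 3) L).map (algebraMap L L)).map (algebraMap L Ω) := by
      ext i j
      simp
    rw [h3] at hx
    generalize ((mx bas a).map (algebraMap L L) +
        (0 : L) • (0 : Matrix (Fin 3) (Fin 3) L).map (algebraMap L L)) = M at hx ⊢
    have h4 : Sc bas A G (M.map (algebraMap L Ω)) = algebraMap L Ω (Sc bas A G M) := by
      rw [Sc, Sc, map_add, map_add, ← IsScalarTower.algebraMap_apply k L Ω, RingHom.map_det,
        ← mA_map (L := L), ← Matrix.map_mul, AddMonoidHom.map_trace]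
      rfl
    rw [h4, map_eq_zero] at hx
    exact hx
  · have hdet := mx_det_ne hF hno bas hb
    set P := linP bas A G (mx bas a) (mx bas b) with hP
    have hP3 : P.coeff 3 ≠ 0 := by rw [hP, linP_coeff]; exact hdet
    have hPd : P.natDegree = 3 :=
      le_antisymm (linP_degree bas A G _ _) (le_natDegree_of_ne_zero hP3)
    have hint : IsIntegral L s := Algebra.IsIntegral.isIntegral s
    obtain ⟨Q, hQ⟩ := minpoly.dvd L s hx
    have hm2 : (minpoly L s).natDegree = 2 := by
      have h3 : (minpoly L s).natDegree ∣ 2 := by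
        rw [← h2, ← IntermediateField.adjoin.finrank hint]
        exact Dvd.intro _ (finrank_mul_finrank L (IntermediateField.adjoin L {s}) Ω)
      rcases (Nat.dvd_prime Nat.prime_two).mp h3 with h4 | h4
      · exact absurd (minpoly.natDegree_eq_one_iff.mp h4) hs
      · exact h4
    have hQ0 : Q ≠ 0 := by
      rintro rfl
      rw [mul_zero] at hQ
      rw [hQ, coeff_zero] at hP3
      exact hP3 rfl
    have hQ1 : Q.natDegree = 1 := by
      have h3 := congrArg natDegree hQ
      rw [hPd, (minpoly.monic hint).natDegree_mul' hQ0, hm2] at h3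
      omega
    obtain ⟨c, hc⟩ := exists_root_of_degree_eq_one (p := Q) (by
      rw [degree_eq_natDegree hQ0, hQ1]; rfl)
    apply hline c
    rw [hQ, map_mul, coe_aeval_eq_eval, hc, mul_zero]

end desc

end Vale.Agent.P011.H211
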