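import Vale.Agent.P011.H211.SkNear

/-!
The Hasse principle for a family of Skolem equations over the line.
-/

open Module Polynomial TensorProduct NumberField IsDedekindDomain

namespace Vale.Agent.P011.H211

open Vale.Agent.P011.Arith (Z0)

section poly

variable {k F : Type} [Field k] [Field F] [Algebra k F]

/-- The norm polynomial of a polynomial over a cubic extension. -/
theorem exists_normP (hF : finrank k F = 3) (A : F[X]) :
    ∃ p : k[X], ∀ t : k, Algebra.norm k (A.eval (algebraMap k F t)) = p.eval t := by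
  have hfd : FiniteDimensional k F := Module.finite_of_finrank_pos (by omega)
  let bas : Basis (Fin 3) k F := Module.finBasisOfFinrankEq k F hF
  refine ⟨(∑ j, H672.cp bas A A.natDegree j • (Algebra.leftMulMatrix bas (bas j)).map C).det,
    fun t => ?_⟩
  rw [H672.eval_eq (b := bas) le_rfl, Algebra.norm_eq_matrix_det bas, map_sum, ← coe_evalRingHom,
    RingHom.map_det]
  congr 1
  ext a c
  simp [Matrix.sum_apply]

theorem eval_near (ν : Valuation k Z0) (p : k[X]) {γ : Z0} (hγ : γ ≠ 0) :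
    ∃ δ : Z0, δ ≠ 0 ∧ ∀ t : k, ν t < δ → ν (p.eval t - p.eval 0) < γ := by
  obtain ⟨M, hM, h⟩ := exists_bound ν p.divX 1
  have hM0 : (0 : Z0) < M := zero_lt_one.trans_le hM
  have hγ0 : (0 : Z0) < γ := zero_lt_iff.mpr hγ
  refine ⟨min 1 (γ / M), (lt_min zero_lt_one (div_pos hγ0 hM0)).ne', fun t ht => ?_⟩
  have h1 : p.eval t - p.eval 0 = t * p.divX.eval t := by
    have h2 := congrArg (eval t) p.divX_mul_X_add
    rw [eval_add, eval_mul, eval_X, eval_C, coeff_zero_eq_eval_zero] at h2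
    rw [← h2]; ring
  rw [h1, map_mul]
  calc _ ≤ ν t * M := mul_le_mul' le_rfl (h t (ht.le.trans (min_le_left _ _)))
    _ < γ := by
      rw [← lt_div_iff₀ hM0]
      exact ht.trans_le (min_le_right _ _)

theorem eval_reflect (n : ℕ) (A : F[X]) (hA : A.natDegree ≤ n) {t : F} (ht : t ≠ 0) :
    A.eval t = (reflect n A).eval t⁻¹ * t ^ n := by
  let _ := invertibleOfNonzero ht
  have h := eval₂_reflect_mul_pow (RingHom.id F) t n A hA
  rw [invOf_eq_inv] at h
  rw [eval, eval, ← h]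

theorem reflect_zero (n : ℕ) (A : F[X]) : (reflect n A).eval 0 = A.coeff n := by
  rw [← coeff_zero_eq_eval_zero, coeff_reflect, revAt_le (Nat.zero_le n), Nat.sub_zero]

end poly

section fam

variable {k F : Type} [Field k] [NumberField k] [Field F] [Algebra k F]

/-- The criterion for small values of the parameter. -/
theorem fam_zero (hF : finrank k F = 3) {v : HeightOneSpectrum (𝓞 k)} (A : F[X]) (g : k[X])
    (h : ∃ γ : Z0, γ ≠ 0 ∧ ∀ a b : k, v.valuation k (a - Algebra.norm k (A.eval 0)) < γ →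
      v.valuation k (b - g.eval 0) < γ → Good F (v.valuation k) a b) :
    ∃ γ : Z0, γ ≠ 0 ∧ ∀ t : k, v.valuation k t < γ →
      Good F (v.valuation k) (Algebra.norm k (A.eval (algebraMap k F t))) (g.eval t) := by
  obtain ⟨γ, hγ, h⟩ := h
  obtain ⟨p, hp⟩ := exists_normP hF A
  obtain ⟨δ, hδ, h1⟩ := eval_near (v.valuation k) p hγ
  obtain ⟨δ', hδ', h2⟩ := eval_near (v.valuation k) g hγ
  refine ⟨min δ δ', (lt_min (zero_lt_iff.mpr hδ) (zero_lt_iff.mpr hδ')).ne', fun t ht => ?_⟩
  refine h _ _ ?_ (h2 t (ht.trans_le (min_le_right _ _)))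
  have h3 := h1 t (ht.trans_le (min_le_left _ _))
  rw [← hp, ← hp, map_zero] at h3
  exact h3

/-- The criterion for large values of the parameter. -/
theorem fam_inf (hF : finrank k F = 3) {v : HeightOneSpectrum (𝓞 k)} (A : F[X])
    (hdA : A.natDegree ≤ 4) (g : k[X]) (hdg : g.natDegree ≤ 6)
    (h : ∃ γ : Z0, γ ≠ 0 ∧ ∀ a b : k, v.valuation k (a - Algebra.norm k (A.coeff 4)) < γ →
      v.valuation k (b - g.coeff 6) < γ → Good F (v.valuation k) a b) :
    ∃ γ : Z0, ∀ t : k, γ < v.valuation k t → ∃ c : k, c ≠ 0 ∧ Good F (v.valuation k)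
      (c ^ 6 * Algebra.norm k (A.eval (algebraMap k F t))) (c ^ 3 * g.eval t) := by
  rw [← reflect_zero, ← reflect_zero] at h
  obtain ⟨γ, hγ, h1⟩ := fam_zero hF (reflect 4 A) (reflect 6 g) h
  have hγ0 : (0 : Z0) < γ := zero_lt_iff.mpr hγ
  refine ⟨γ⁻¹, fun t ht => ?_⟩
  have ht0 : t ≠ 0 := by
    rintro rfl
    rw [map_zero] at ht
    exact absurd ht not_lt_zero
  have hvt : 0 < v.valuation k t := zero_lt_iff.mpr ((Valuation.ne_zero_iff _).mpr ht0)
  have h2 := h1 t⁻¹ (by
    rw [map_inv₀]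
    exact (inv_lt_comm₀ hvt hγ0).mpr ht)
  refine ⟨(t ^ 2)⁻¹, inv_ne_zero (pow_ne_zero 2 ht0), ?_⟩
  have ht0' : algebraMap k F t ≠ 0 := (_root_.map_ne_zero _).mpr ht0
  have e1 : ((t ^ 2)⁻¹) ^ 6 * Algebra.norm k (A.eval (algebraMap k F t)) =
      Algebra.norm k ((reflect 4 A).eval (algebraMap k F t⁻¹)) := by
    rw [eval_reflect 4 A hdA ht0', map_mul, ← map_pow (algebraMap k F), Algebra.norm_algebraMap,
      hF, map_inv₀]
    field_simp
  have e2 : ((t ^ 2)⁻¹) ^ 3 * g.eval t = (reflect 6 g).eval t⁻¹ := by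
    rw [eval_reflect 6 g hdg ht0]
    field_simp
  rw [e1, e2]
  exact h2

end fam

section family

variable {k F : Type} [Field k] [NumberField k] [Field F] [NumberField F] [Algebra k F]

/-- **The Hasse principle for a family of Skolem equations.** -/
theorem skolem_family (hF : finrank k F = 3) (A : F[X]) (hdA : A.natDegree ≤ 4)
    (hA4 : A.coeff 4 ≠ 0) (hco : ∀ t : AlgebraicClosure k, ∃ σ : F →ₐ[k] AlgebraicClosure k,
      (A.map (σ : F →+* AlgebraicClosure k)).eval t ≠ 0) (g : k[X]) (hdg : g.natDegree ≤ 6)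
    {T : Set (HeightOneSpectrum (𝓞 k))} (hT : T.Finite)
    (h0 : ∀ v ∈ T, LPt v (A.eval 0) (g.eval 0) ∨
      Good F (v.valuation k) (Algebra.norm k (A.eval 0)) (g.eval 0))
    (hinf : ∀ v ∉ T, LPt v (A.coeff 4) (g.coeff 6)) {E : Set k} (hE : E.Finite) :
    ∃ t : k, t ∉ E ∧ t ≠ 0 ∧ ∃ f : F, Algebra.norm k f +
      Algebra.trace k F (A.eval (algebraMap k F t) * f) + g.eval t = 0 := by
  obtain ⟨S0, hS0, hsk⟩ := skolem (k := k) (F := F) hF
  have hAt : ∀ t : k, A.eval (algebraMap k F t) ≠ 0 := by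
    intro t ht
    obtain ⟨σ, hσ⟩ := hco (algebraMap k _ t)
    apply hσ
    have e : algebraMap k (AlgebraicClosure k) t =
        (σ : F →+* AlgebraicClosure k) (algebraMap k F t) := (σ.commutes t).symm
    rw [e, eval_map, eval₂_at_apply, ht, map_zero]
  have hA0 : A.eval 0 ≠ 0 := by
    have := hAt 0
    rwa [map_zero] at this
  obtain ⟨t, htE, ht0, ht⟩ := H672.exists_good hF A hdA hA4 hco g hdg
    (fun v t => Nonempty (F →ₐ[k] v.adicCompletion k) ∨ ∃ c : k, c ≠ 0 ∧
      Good F (v.valuation k) (c ^ 6 * Algebra.norm k (A.eval (algebraMap k F t)))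
        (c ^ 3 * g.eval t)) hS0 hT hE (fun v hv => by
      by_cases hno : Nonempty (F →ₐ[k] v.adicCompletion k)
      · exact ⟨1, one_ne_zero, fun t _ => Or.inl hno⟩
      · have h1 : ∃ γ : Z0, γ ≠ 0 ∧ ∀ a b : k,
            v.valuation k (a - Algebra.norm k (A.eval 0)) < γ →
            v.valuation k (b - g.eval 0) < γ → Good F (v.valuation k) a b := by
          rcases h0 v hv with (h2 | h2) | h2
          · exact absurd h2 hno
          · exact good_near hF hno hA0 h2
          · exact good_open hF h2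
        obtain ⟨γ, hγ, h3⟩ := fam_zero hF A g h1
        refine ⟨γ, hγ, fun t ht => Or.inr ⟨1, one_ne_zero, ?_⟩⟩
        rw [one_pow, one_pow, one_mul, one_mul]
        exact h3 t ht) (fun v hv => by
      by_cases hno : Nonempty (F →ₐ[k] v.adicCompletion k)
      · exact Or.inl hno
      · right
        rcases hinf v hv with h2 | h2
        · exact absurd h2 hno
        · obtain ⟨γ, h3⟩ := fam_inf hF A hdA g hdg (good_near hF hno hA4 h2)
          exact ⟨γ, fun t ht => Or.inr (h3 t ht)⟩)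
  refine ⟨t, htE, ht0, hsk _ (hAt t) _ fun v => ?_⟩
  rcases ht v with (h1 | ⟨c, hc, h1⟩) | h1 | ⟨h1, h2, h3⟩
  · exact Or.inl h1
  · exact Or.inr ⟨c, hc, Or.inl h1⟩
  · exact Or.inl h1
  · obtain ⟨c, hc, h4, h5⟩ := H672.exists_scale hF h2 h3
    refine Or.inr ⟨c, hc, Or.inr ⟨h1, ?_, h5⟩⟩
    rw [map_mul (Algebra.norm k), Algebra.norm_algebraMap, hF, ← pow_mul] at h4
    exact h4

end family

end Vale.Agent.P011.H211
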