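import Vale.Agent.P011.H211.SkPt
import Vale.Agent.P011.H373.LocNorm

/-!
The Hasse principle for the Skolem equation `N(f) + Tr(A f) + G = 0`.
-/

open Module Polynomial NumberField IsDedekindDomain

namespace Vale.Agent.P011.H211

open Vale.Agent.P011.Arith (Z0 exists_below val_above val_lt_val_iff)
open Vale.Agent.P011.Even (valued_alg)

section point

variable {k F : Type} [Field k] [NumberField k] [Field F] [Algebra k F]

/-- A point over the completion gives approximate roots. -/
theorem rootApp_of_point (hF : finrank k F = 3) {v : HeightOneSpectrum (𝓞 k)}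
    (ψ : F →ₐ[k] v.adicCompletion k) (θ : F) {γ : Z0} (hγ : γ ≠ 0) :
    ∃ b : k, v.valuation k (Algebra.norm k (algebraMap k F b - θ)) < γ := by
  obtain ⟨P, hm, hd, h0, hP⟩ := exists_poly hF θ
  have hr : aeval (ψ θ) P = 0 := by
    rw [Polynomial.aeval_algHom_apply, h0, map_zero]
  have hcont : Continuous fun x : v.adicCompletion k => aeval x P := P.continuous_aeval
  have hopen : IsOpen {x : v.adicCompletion k | Valued.v (aeval x P) < γ} :=
    (W.isOpen_val v γ).preimage hcont
  obtain ⟨b, hb⟩ := (HeightOneSpectrum.denseRange_algebraMap k v).exists_mem_open hopen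
    ⟨ψ θ, by
      show Valued.v (aeval (ψ θ) P) < γ
      rw [hr, map_zero]
      exact zero_lt_iff.mpr hγ⟩
  refine ⟨b, ?_⟩
  have h1 : Valued.v (aeval (algebraMap k (v.adicCompletion k) b) P) < γ := hb
  rw [aeval_algebraMap_apply, valued_alg, coe_aeval_eq_eval] at h1
  rwa [hP]

end point

section gen

variable {k F : Type} [Field k] [NumberField k] [Field F] [NumberField F] [Algebra k F]

omit [NumberField F] in
theorem val_nat_le (v : HeightOneSpectrum (𝓞 k)) (m : ℕ) :
    v.valuation k (m : k) ≤ 1 := by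
  have := v.valuation_le_one (K := k) (m : 𝓞 k)
  simpa using this

theorem exists_gen (hF : finrank k F = 3) : ∃ (f : (𝓞 k)[X]) (θ : F), f.Monic ∧
    f.natDegree = 3 ∧ aeval θ (f.map (algebraMap (𝓞 k) k)) = 0 ∧ ∀ c : k, algebraMap k F c ≠ θ := by
  have hfd : FiniteDimensional k F := Module.finite_of_finrank_pos (by omega)
  obtain ⟨θ₀, hθ₀⟩ : ∃ θ : F, θ ∉ (algebraMap k F).range := by
    by_contra hcon
    push Not at hcon
    have h1 : Function.Surjective (algebraMap k F) := fun x => hcon x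
    have h2 := (LinearEquiv.ofBijective (Algebra.linearMap k F)
        ⟨(algebraMap k F).injective, h1⟩).finrank_eq
    rw [finrank_self, hF] at h2
    omega
  have halg : IsAlgebraic (𝓞 k) θ₀ :=
    (IsFractionRing.isAlgebraic_iff (𝓞 k) k F).mpr (Algebra.IsAlgebraic.isAlgebraic θ₀)
  obtain ⟨m, hm0, hm⟩ := halg.exists_integral_multiple
  set θ : F := m • θ₀ with hθ
  have hmk : algebraMap (𝓞 k) k m ≠ 0 := by
    intro h
    apply hm0
    exact (FaithfulSMul.algebraMap_injective (𝓞 k) k) (by rw [h, map_zero])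
  have hθk : θ ∉ (algebraMap k F).range := by
    rintro ⟨c, hc⟩
    apply hθ₀
    refine ⟨c / algebraMap (𝓞 k) k m, ?_⟩
    rw [map_div₀, hc, hθ, Algebra.smul_def, IsScalarTower.algebraMap_apply (𝓞 k) k F]
    rw [mul_div_cancel_left₀]
    exact (_root_.map_ne_zero _).mpr hmk
  obtain ⟨P, hPm, hPd, hP0, -⟩ := exists_poly hF θ
  have hirr := irred_poly hF hθk hPm hPd hP0
  have hmin : minpoly k θ = P :=
    (minpoly.eq_of_irreducible_of_monic hirr hP0 hPm).symm
  have hmap : (minpoly (𝓞 k) θ).map (algebraMap (𝓞 k) k) = P := by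
    rw [← hmin]
    exact (minpoly.isIntegrallyClosed_eq_field_fractions k F hm).symm
  refine ⟨minpoly (𝓞 k) θ, θ, minpoly.monic hm, ?_, by rw [hmap, hP0], fun c hc => hθk ⟨c, hc⟩⟩
  rw [← (minpoly.monic hm).natDegree_map (algebraMap (𝓞 k) k), hmap, hPd]

theorem finite_bad {f : (𝓞 k)[X]} (hf : f.Monic) (hd : f.natDegree = 3)
    (hsep : (f.map (algebraMap (𝓞 k) k)).Separable) :
    {v : HeightOneSpectrum (𝓞 k) | ¬ (v.valuation k (3 : k) = 1 ∧
      (f.map (Ideal.Quotient.mk v.asIdeal)).Separable)}.Finite := by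
  set ι := algebraMap (𝓞 k) k with hι
  have hd0 : resultant f (derivative f) ≠ 0 := by
    intro h0
    have h1 : resultant (f.map ι) (derivative (f.map ι)) ≠ 0 := resultant_ne_zero _ _ hsep
    apply h1
    rw [derivative_map, H373.res_map ι hf, h0, map_zero]
  obtain ⟨A, B, -, -, hAB⟩ := exists_mul_add_mul_eq_C_resultant f (derivative f) le_rfl le_rfl
    (Or.inl (by rw [hd]; norm_num))
  set d := resultant f (derivative f) with hdd
  have hιi : Function.Injective ι := FaithfulSMul.algebraMap_injective (𝓞 k) k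
  have hιd : ι d ≠ 0 := (map_ne_zero_iff ι hιi).mpr hd0
  refine ((HeightOneSpectrum.Support.finite (𝓞 k) (3 * ι d)⁻¹)).subset fun v hv => ?_
  by_contra hcon
  apply hv
  have h1 : v.valuation k (3 * ι d)⁻¹ ≤ 1 := not_lt.mp hcon
  rw [map_inv₀, map_mul] at h1
  have h3 : v.valuation k (3 : k) ≤ 1 := by
    have := val_nat_le v 3
    simpa using this
  have h4 : v.valuation k (ι d) ≤ 1 := v.valuation_le_one d
  have h30 : v.valuation k (3 : k) ≠ 0 := (Valuation.ne_zero_iff _).mpr (by norm_num)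
  have h40 : v.valuation k (ι d) ≠ 0 := (Valuation.ne_zero_iff _).mpr hιd
  have h5 : 1 ≤ v.valuation k (3 : k) * v.valuation k (ι d) :=
    (inv_le_one₀ (zero_lt_iff.mpr (mul_ne_zero h30 h40))).mp h1
  have h6 : v.valuation k (3 : k) = 1 := by
    refine le_antisymm h3 (h5.trans ?_)
    calc _ ≤ v.valuation k (3 : k) * 1 := mul_le_mul' le_rfl h4
      _ = _ := mul_one _
  have h7 : v.valuation k (ι d) = 1 := by
    refine le_antisymm h4 (h5.trans ?_)
    rw [h6, one_mul]
  refine ⟨h6, ?_⟩
  have hmax := v.isMaximal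
  let _ : Field (𝓞 k ⧸ v.asIdeal) := Ideal.Quotient.field v.asIdeal
  set π := Ideal.Quotient.mk v.asIdeal with hπ
  have h8 : π d ≠ 0 := by
    intro h
    rw [hπ, Ideal.Quotient.eq_zero_iff_mem] at h
    have h11 : v.valuation k (ι d) < 1 := (v.valuation_lt_one_iff_mem (K := k) d).mpr h
    rw [h7] at h11
    exact lt_irrefl _ h11
  have h9 := congrArg (Polynomial.map π) hAB
  rw [Polynomial.map_add, Polynomial.map_mul, Polynomial.map_mul, map_C] at h9
  refine ⟨C (π d)⁻¹ * A.map π, C (π d)⁻¹ * B.map π, ?_⟩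
  rw [derivative_map]
  have h10 : C (π d)⁻¹ * C (π d) = 1 := by
    rw [← C_mul, inv_mul_cancel₀ h8, C_1]
  linear_combination C (π d)⁻¹ * h9 + h10

end gen

section main

variable {k F κ N : Type} [Field k] [NumberField k] [Field F] [NumberField F] [Algebra k F]
  [Field κ] [NumberField κ] [Field N] [NumberField N] [Algebra k κ] [Algebra κ N] [Algebra k N]
  [IsScalarTower k κ N]

/-- The local norm condition is invariant under multiplication by cubes. -/
theorem locN_of_cube (hN : finrank κ N = 3) {ν : Valuation κ Z0} {ω c : κ} (hc : c ≠ 0)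
    (h : LocN N ν (c ^ 3 * ω)) : LocN N ν ω := by
  obtain ⟨e, he⟩ := h
  refine ⟨algebraMap κ N c⁻¹ * e, ?_⟩
  have h1 : ω / Algebra.norm κ (algebraMap κ N c⁻¹ * e) = c ^ 3 * ω / Algebra.norm κ e := by
    rw [map_mul, Algebra.norm_algebraMap, hN, inv_pow]
    field_simp
  rwa [h1]

/-- The local condition at one place. -/
theorem locN_main (B : Bc k F κ N) {f : (𝓞 k)[X]} {θ : F} (hf : f.Monic) (hfd : f.natDegree = 3)
    (hθ : aeval θ (f.map (algebraMap (𝓞 k) k)) = 0) (hgen : ∀ c : k, algebraMap k F c ≠ θ)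
    {A : F} (hA : A ≠ 0) (G : k) {ω ω' : κ} (hs : ω + ω' = -algebraMap k κ G)
    (hp : ω * ω' = -algebraMap k κ (Algebra.norm k A)) {W : HeightOneSpectrum (𝓞 κ)}
    {v : HeightOneSpectrum (𝓞 k)} (hvW : W.asIdeal.comap (algebraMap (𝓞 k) (𝓞 κ)) = v.asIdeal)
    (h : Nonempty (F →ₐ[k] v.adicCompletion k) ∨ ∃ c : k, c ≠ 0 ∧
      (Good F (v.valuation k) (c ^ 6 * Algebra.norm k A) (c ^ 3 * G) ∨
      ((v.valuation k (3 : k) = 1 ∧ (f.map (Ideal.Quotient.mk v.asIdeal)).Separable) ∧
        v.valuation k (c ^ 6 * Algebra.norm k A) = 1 ∧ v.valuation k (c ^ 3 * G) ≤ 1))) :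
    LocN N (W.valuation κ) ω := by
  have hfdF : FiniteDimensional k F := Module.finite_of_finrank_pos (by rw [B.hF]; norm_num)
  have hfdN : FiniteDimensional κ N := Module.finite_of_finrank_pos (by rw [B.hN]; norm_num)
  obtain ⟨e, he, hval⟩ := val_above (F := k) (E := κ) hvW
  have hNA : Algebra.norm k A ≠ 0 := by rwa [Ne, Algebra.norm_eq_zero_iff]
  have hω0 : ω ≠ 0 := by
    rintro rfl
    rw [zero_mul, eq_comm, neg_eq_zero, map_eq_zero] at hp
    exact hNA hp
  have hθk : B.φ θ ∉ (algebraMap κ N).range := by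
    rintro ⟨c, hc⟩
    have h1 := B.trace_φ θ
    rw [← hc, Algebra.trace_algebraMap, B.hN, nsmul_eq_mul] at h1
    have h2 : B.φ (algebraMap k F (Algebra.trace k F θ / 3)) = B.φ θ := by
      rw [B.φ_map, ← hc, map_div₀, ← h1, map_ofNat]
      congr 1
      push_cast
      field_simp
    exact hgen _ (B.φ.injective h2)
  have h9 : W.valuation κ ((3 : κ) ^ 2) ≠ 0 := (Valuation.ne_zero_iff _).mpr (by norm_num)
  rcases h with ⟨⟨ψ⟩⟩ | ⟨c, hc, hg | ⟨⟨h3, hsep⟩, ha1, hg1⟩⟩
  · refine locN_of_rootApp B.hN (fun m => val_nat_le W m) h9 hθk (fun γ hγ => ?_) hω0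
    obtain ⟨b, hb⟩ := rootApp_of_point B.hF ψ θ (γ := min γ 1) (by
      rcases min_choice γ 1 with h | h <;> rw [h]
      · exact hγ
      · exact one_ne_zero)
    refine ⟨algebraMap k κ b, ?_⟩
    rw [← B.φ_map, ← map_sub, B.hn, hval]
    calc _ ≤ v.valuation k (Algebra.norm k (algebraMap k F b - θ)) ^ 1 :=
          pow_le_pow_right_of_le_one' (hb.le.trans (min_le_right _ _)) (Nat.one_le_iff_ne_zero.mpr he)
      _ = v.valuation k (Algebra.norm k (algebraMap k F b - θ)) := pow_one _
      _ < min γ 1 := hb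
      _ ≤ γ := min_le_left _ _
  · have hcκ : algebraMap k κ c ≠ 0 := (_root_.map_ne_zero _).mpr hc
    apply locN_of_cube B.hN hcκ
    set a : k := c ^ 6 * Algebra.norm k A with ha
    set g : k := c ^ 3 * G with hgd
    have ha0 : a ≠ 0 := mul_ne_zero (pow_ne_zero 6 hc) hNA
    have hA' : Algebra.norm κ (B.φ (algebraMap k F (c ^ 2) * A)) = algebraMap k κ a := by
      rw [B.hn, map_mul, Algebra.norm_algebraMap, B.hF, ha, ← pow_mul]
    have hs' : algebraMap k κ c ^ 3 * ω + algebraMap k κ c ^ 3 * ω' = -algebraMap k κ g := by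
      rw [← mul_add, hs, hgd, map_mul, map_pow]; ring
    have hp' : (algebraMap k κ c ^ 3 * ω) * (algebraMap k κ c ^ 3 * ω') = -algebraMap k κ a := by
      rw [ha, map_mul, map_pow]
      linear_combination (algebraMap k κ c ^ 6) * hp
    have ha0' : algebraMap k κ a ≠ 0 := (_root_.map_ne_zero _).mpr ha0
    clear_value a g
    rcases hg with ⟨z, Bd, h1, h2, h3, h4, h5, h6, h7⟩ | h1
    · refine locN_of_approx B.hN hA' ha0' hs' hp' (B := Bd ^ e) (z := B.φ z)
        (one_le_pow₀ h1) ?_ ?_ ?_ ?_ ?_ ?_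
      · rw [hval]; exact pow_le_pow_left' h2 e
      · rw [hval]; exact pow_le_pow_left' h3 e
      · rw [B.trace_φ, hval]; exact pow_le_pow_left' h4 e
      · rw [B.hn, hval]; exact pow_le_pow_left' h5 e
      · rw [← map_one B.φ, ← map_sub, B.hn, hval]; exact pow_le_pow_left' h6 e
      · have e9 : W.valuation κ (9 : κ) = v.valuation k (9 : k) ^ e := by
          rw [← hval]
          congr 1
          exact (map_ofNat (algebraMap k κ) 9).symm
        have e8 : B.φ z ^ 2 + algebraMap κ N (algebraMap k κ g) * B.φ z -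
            algebraMap κ N (algebraMap k κ a) =
            B.φ (z ^ 2 + algebraMap k F g * z - algebraMap k F a) := by
          rw [map_sub, map_add, map_mul, map_pow, B.φ_map, B.φ_map]
        have e7 : Algebra.norm κ (B.φ z) + algebraMap k κ a *
            (Algebra.trace κ N (B.φ z) + algebraMap k κ g) =
            algebraMap k κ (Algebra.norm k z + a * (Algebra.trace k F z + g)) := by
          rw [B.hn, B.trace_φ, map_add, map_mul, map_add]
        rw [e7, e8, B.hn, hval, hval, hval, e9, ← pow_mul, mul_comm e 5, pow_mul, ← mul_pow,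
          ← mul_pow, ← mul_pow]
        exact pow_lt_pow_left₀ h7 zero_le he
    · refine locN_of_small B.hN hA' ha0' hs' hp' (fun m => val_nat_le W m) ?_
      have e1 : algebraMap k κ g ^ 2 + 4 * algebraMap k κ a = algebraMap k κ (g ^ 2 + 4 * a) := by
        rw [map_add, map_pow, map_mul, map_ofNat]
      have e2 : 81 * algebraMap k κ g ^ 2 = algebraMap k κ (81 * g ^ 2) := by
        rw [map_mul, map_pow, map_ofNat]
      rw [e1, e2, val_lt_val_iff hvW]
      exact h1
  · have hcκ : algebraMap k κ c ≠ 0 := (_root_.map_ne_zero _).mpr hc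
    apply locN_of_cube B.hN hcκ
    set a : k := c ^ 6 * Algebra.norm k A with ha
    set g : k := c ^ 3 * G with hgd
    have hs' : algebraMap k κ c ^ 3 * ω + algebraMap k κ c ^ 3 * ω' = -algebraMap k κ g := by
      rw [← mul_add, hs, hgd, map_mul, map_pow]; ring
    have hp' : (algebraMap k κ c ^ 3 * ω) * (algebraMap k κ c ^ 3 * ω') = -algebraMap k κ a := by
      rw [ha, map_mul, map_pow]
      linear_combination (algebraMap k κ c ^ 6) * hp
    set η := algebraMap k κ c ^ 3 * ω with hη
    set η' := algebraMap k κ c ^ 3 * ω' with hη'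
    have hva : W.valuation κ (algebraMap k κ a) = 1 := by rw [hval, ha1, one_pow]
    have hvg : W.valuation κ (algebraMap k κ g) ≤ 1 := by
      rw [hval]; exact pow_le_one' hg1 e
    have hη1 : W.valuation κ η ≤ 1 := val_root_le (a := algebraMap k κ a)
      (g := algebraMap k κ g) (by
        have : algebraMap k κ g = -(η + η') := by rw [hs']; ring
        rw [this]; linear_combination -hp') le_rfl hva.le hvg
    have hη1' : W.valuation κ η' ≤ 1 := val_root_le (a := algebraMap k κ a)
      (g := algebraMap k κ g) (by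
        have : algebraMap k κ g = -(η + η') := by rw [hs']; ring
        rw [this]; linear_combination -hp') le_rfl hva.le hvg
    have hηu : W.valuation κ η = 1 := by
      refine le_antisymm hη1 ?_
      have h1 := congrArg (W.valuation κ) hp'
      rw [map_mul, Valuation.map_neg, hva] at h1
      rw [← h1]
      calc _ ≤ W.valuation κ η * 1 := mul_le_mul' le_rfl hη1'
        _ = _ := mul_one _
    -- the unramified place
    have hle : v.asIdeal ≤ W.asIdeal.comap (algebraMap (𝓞 k) (𝓞 κ)) := hvW.ge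
    set π := Ideal.quotientMap W.asIdeal (algebraMap (𝓞 k) (𝓞 κ)) hle with hπ
    have hmap : (f.map (algebraMap (𝓞 k) (𝓞 κ))).map (Ideal.Quotient.mk W.asIdeal) =
        (f.map (Ideal.Quotient.mk v.asIdeal)).map π := by
      rw [Polynomial.map_map, Polynomial.map_map]
      congr 1
    have hW3 : W.valuation κ (((3 : ℕ)) : κ) = 1 := by
      have : (((3 : ℕ)) : κ) = algebraMap k κ 3 := by rw [map_ofNat]; norm_num
      rw [this, hval, h3, one_pow]
    have h := H373.loc_unram (p := 3) (k := κ) (E := N) (by norm_num) B.hN W hW3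
      (f := f.map (algebraMap (𝓞 k) (𝓞 κ))) (hf.map _) (by rw [hf.natDegree_map, hfd])
      (θ := B.φ θ) (by
        rw [Polynomial.map_map, ← IsScalarTower.algebraMap_eq (𝓞 k) (𝓞 κ) κ,
          IsScalarTower.algebraMap_eq (𝓞 k) k κ, ← Polynomial.map_map, aeval_map_algebraMap,
          Polynomial.aeval_algHom_apply, hθ, map_zero]) (fun c hc => hθk ⟨c, hc⟩)
      (by rw [hmap]; exact hsep.map) (b := η) (c := 1) (by rw [one_pow, div_one, hηu])
    obtain ⟨y, hy⟩ := h
    refine ⟨y, ?_⟩
    rwa [Nat.cast_ofNat] at hy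

end main

section skolem

variable {k F : Type} [Field k] [NumberField k] [Field F] [NumberField F] [Algebra k F]

/-- The local condition at `v`. -/
def Loc (F : Type) [Field F] [Algebra k F] (S0 : Set (HeightOneSpectrum (𝓞 k)))
    (v : HeightOneSpectrum (𝓞 k)) (a g : k) : Prop :=
  Good F (v.valuation k) a g ∨ (v ∉ S0 ∧ v.valuation k a = 1 ∧ v.valuation k g ≤ 1)

/-- **The Hasse principle for the Skolem equation** of a cubic extension `F / k`. -/
theorem skolem (hF : finrank k F = 3) : ∃ S0 : Set (HeightOneSpectrum (𝓞 k)), S0.Finite ∧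
    ∀ A : F, A ≠ 0 → ∀ G : k, (∀ v : HeightOneSpectrum (𝓞 k),
      Nonempty (F →ₐ[k] v.adicCompletion k) ∨
      ∃ c : k, c ≠ 0 ∧ Loc F S0 v (c ^ 6 * Algebra.norm k A) (c ^ 3 * G)) →
    ∃ f : F, Algebra.norm k f + Algebra.trace k F (A * f) + G = 0 := by
  have hfdF : FiniteDimensional k F := Module.finite_of_finrank_pos (by omega)
  obtain ⟨f, θ, hf, hd, hθ, hgen⟩ := exists_gen hF
  have hsep : (f.map (algebraMap (𝓞 k) k)).Separable :=
    (irred_poly hF (fun ⟨c, hc⟩ => hgen c hc) (hf.map _) (by rw [hf.natDegree_map, hd])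
      hθ).separable
  refine ⟨_, finite_bad hf hd hsep, fun A hA G h => ?_⟩
  have hNA : Algebra.norm k A ≠ 0 := by rwa [Ne, Algebra.norm_eq_zero_iff]
  have key : ∀ (κ N : Type) [Field κ] [NumberField κ] [Field N] [NumberField N] [Algebra k κ]
      [Algebra κ N] [Algebra k N] [IsScalarTower k κ N] (_ : Bc k F κ N) (ω ω' : κ)
      (_ : ω + ω' = -algebraMap k κ G) (_ : ω * ω' = -algebraMap k κ (Algebra.norm k A)),
      ∃ y : N, Algebra.norm κ y = ω := by
    intro κ N _ _ _ _ _ _ _ _ B ω ω' hs hp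
    have hω0 : ω ≠ 0 := by
      rintro rfl
      rw [zero_mul, eq_comm, neg_eq_zero, map_eq_zero] at hp
      exact hNA hp
    refine H373.hasse_norm_prime (p := 3) (by norm_num) (by norm_num) B.hN (Units.mk0 ω hω0)
      fun W => ?_
    obtain ⟨v, hv⟩ := exists_below (F := k) W
    have h1 := locN_main B hf hd hθ hgen hA G hs hp hv ?_
    · obtain ⟨y, hy⟩ := h1
      refine ⟨y, ?_⟩
      rw [Units.val_mk0]
      rwa [Nat.cast_ofNat]
    · rcases h v with h1 | ⟨c, hc, h1 | ⟨h1, h2, h3⟩⟩
      · exact Or.inl h1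
      · exact Or.inr ⟨c, hc, Or.inl h1⟩
      · exact Or.inr ⟨c, hc, Or.inr ⟨not_not.mp h1, h2, h3⟩⟩
  by_cases hH0 : G ^ 2 + 4 * Algebra.norm k A = 0
  · exact solve_zero hF hA G hH0
  by_cases hH : IsSquare (G ^ 2 + 4 * Algebra.norm k A)
  · obtain ⟨w, hw⟩ := hH
    have hw0 : w ≠ 0 := by
      rintro rfl
      exact hH0 (by rw [hw, mul_zero])
    obtain ⟨y, hy⟩ := key k F ⟨AlgHom.id k F, hF, hF, fun e => rfl⟩ ((w - G) / 2) ((-w - G) / 2)
      (by rw [Algebra.algebraMap_self, RingHom.id_apply]; ring)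
      (by rw [Algebra.algebraMap_self, RingHom.id_apply]; linear_combination hw / 4)
    exact solve_split hF hA G w hw0 (by rw [hw]; ring) (y := y) (by rw [hy]; ring)
  · obtain ⟨κ, N, _, _, _, _, _, _, B, w, hw, hdec, h2, -⟩ := exists_quad hF _ hH
    have hfκ : FiniteDimensional k κ := Module.finite_of_finrank_pos (by omega)
    have hfN : FiniteDimensional κ N := Module.finite_of_finrank_pos (by rw [B.hN]; norm_num)
    have hκ : NumberField κ := NumberField.of_module_finite k κ
    have hN : NumberField N := NumberField.of_module_finite κ N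
    obtain ⟨y, hy⟩ := key κ N B ((w - algebraMap k κ G) / 2) ((-w - algebraMap k κ G) / 2)
      (by ring) (by
        rw [map_add, map_pow, map_mul, map_ofNat] at hw
        linear_combination -hw / 4)
    exact solve_quad B hA G hH hw hdec (y := y) (by rw [hy]; ring)

end skolem

end Vale.Agent.P011.H211
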