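import Vale.Agent.P011.H211.SkDesc

/-!
Local points of the Skolem equation.
-/

open Module Polynomial TensorProduct NumberField IsDedekindDomain

namespace Vale.Agent.P011.H211

variable {k F : Type} [Field k] [NumberField k] [Field F] [Algebra k F]

/-- The Skolem equation `N(f) + Tr(A f) + G = 0` has a point over the completion at `v`. -/
def LocPt (v : HeightOneSpectrum (𝓞 k)) (A : F) (G : k) : Prop :=
  ∃ f : v.adicCompletion k ⊗[k] F, Algebra.norm (v.adicCompletion k) f +
    Algebra.trace (v.adicCompletion k) (v.adicCompletion k ⊗[k] F) ((1 ⊗ₜ A) * f) +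
    algebraMap k (v.adicCompletion k) G = 0

/-- `F` has a point over the completion at `v`, or the Skolem equation has one. -/
def LPt (v : HeightOneSpectrum (𝓞 k)) (A : F) (G : k) : Prop :=
  Nonempty (F →ₐ[k] v.adicCompletion k) ∨ LocPt v A G

/-- Quadratic descent at a place. -/
theorem locPt_of_quad (hF : finrank k F = 3) (v : HeightOneSpectrum (𝓞 k)) {Ω : Type} [Field Ω]
    [Algebra k Ω] [Algebra (v.adicCompletion k) Ω] [IsScalarTower k (v.adicCompletion k) Ω]
    (h2 : finrank (v.adicCompletion k) Ω = 2) {A : F} {G : k}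
    (h : ∃ f : Ω ⊗[k] F, Algebra.norm Ω f + Algebra.trace Ω (Ω ⊗[k] F) ((1 ⊗ₜ A) * f) +
      algebraMap k Ω G = 0) : LPt v A G := by
  by_cases hno : Nonempty (F →ₐ[k] v.adicCompletion k)
  · exact Or.inl hno
  · exact Or.inr (quad_desc hF h2 hno h)

end Vale.Agent.P011.H211
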