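import Vale.Agent.P011.H211.SkQuad

/-!
Local criteria for the Skolem equation.
-/

open Module Polynomial NumberField IsDedekindDomain

namespace Vale.Agent.P011.H211

open Vale.Agent.P011.Arith (Z0 exists_below val_above val_lt_val_iff)

section crit

variable {k F : Type} [Field k] [Field F] [Algebra k F]

/-- An approximate solution of `N(z) + a (Tr z + g) = 0`. -/
def Crit1 (F : Type) [Field F] [Algebra k F] (ν : Valuation k Z0) (a g : k) : Prop :=
  ∃ (z : F) (B : Z0), 1 ≤ B ∧ ν g ≤ B ∧ ν a ≤ B ∧ ν (Algebra.trace k F z) ≤ B ∧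
    ν (Algebra.norm k z) ≤ B ∧ ν (Algebra.norm k (1 - z)) ≤ B ∧
    ν (Algebra.norm k z + a * (Algebra.trace k F z + g)) * B ^ 5 <
      ν 9 * ν a * ν (Algebra.norm k (z ^ 2 + algebraMap k F g * z - algebraMap k F a))

/-- The discriminant is small. -/
def Crit2 (ν : Valuation k Z0) (a g : k) : Prop := ν (g ^ 2 + 4 * a) < ν (81 * g ^ 2)

/-- The open local criterion. -/
def Good (F : Type) [Field F] [Algebra k F] (ν : Valuation k Z0) (a g : k) : Prop :=
  Crit1 F ν a g ∨ Crit2 ν a g

end crit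

section general

variable {κ N : Type} [Field κ] [CharZero κ] [Field N] [Algebra κ N]

/-- The local norm condition. -/
def LocN (N : Type) [Field N] [Algebra κ N] (ν : Valuation κ Z0) (b : κ) : Prop :=
  ∃ e : N, ν (b / Algebra.norm κ e - 1) < ν (3 ^ 2)

omit [CharZero κ] in
theorem val_root_le {ν : Valuation κ Z0} {a g ω : κ} (h : ω ^ 2 + g * ω = a) {B : Z0} (hB : 1 ≤ B)
    (ha : ν a ≤ B) (hg : ν g ≤ B) : ν ω ≤ B := by
  by_contra hlt
  push Not at hlt
  have h1 : ν (ω ^ 2) = ν (a - g * ω) := by rw [← h]; ring_nf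
  have h2 : ν (a - g * ω) ≤ max (ν a) (ν (g * ω)) := Valuation.map_sub _ _ _
  have hpos : 0 < ν ω := (zero_lt_one.trans_le hB).trans hlt
  have h3 : ν (g * ω) < ν (ω ^ 2) := by
    rw [map_mul, map_pow, pow_two]
    exact mul_lt_mul_of_pos_right (hg.trans_lt hlt) hpos
  have h4 : ν a < ν (ω ^ 2) := by
    rw [map_pow, pow_two]
    calc ν a ≤ B * 1 := by rw [mul_one]; exact ha
      _ ≤ B * B := mul_le_mul_right hB B
      _ < ν ω * ν ω := mul_lt_mul'' hlt hlt zero_le zero_le
  rw [h1] at h3 h4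
  exact absurd h2 (not_le.mpr (max_lt h4 h3))

/-- The local norm condition from an approximate solution. -/
theorem locN_of_approx (hN : finrank κ N = 3) {ν : Valuation κ Z0} {a g ω ω' : κ} {A z : N}
    (hA : Algebra.norm κ A = a) (ha : a ≠ 0) (hs : ω + ω' = -g) (hp : ω * ω' = -a) {B : Z0}
    (hB : 1 ≤ B) (hgB : ν g ≤ B) (haB : ν a ≤ B) (hT : ν (Algebra.trace κ N z) ≤ B)
    (hn : ν (Algebra.norm κ z) ≤ B) (hn1 : ν (Algebra.norm κ (1 - z)) ≤ B)
    (h : ν (Algebra.norm κ z + a * (Algebra.trace κ N z + g)) * B ^ 5 <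
      ν 9 * ν a * ν (Algebra.norm κ (z ^ 2 + algebraMap κ N g * z - algebraMap κ N a))) :
    LocN N ν ω := by
  have hfd : FiniteDimensional κ N := Module.finite_of_finrank_pos (by omega)
  obtain ⟨s, hcub⟩ := cub hN z
  set T := Algebra.trace κ N z with hTdef
  set n := Algebra.norm κ z with hndef
  have hω0 : ω ≠ 0 := by
    rintro rfl
    rw [zero_mul, eq_comm, neg_eq_zero] at hp
    exact ha hp
  have hω0' : ω' ≠ 0 := by
    rintro rfl
    rw [mul_zero, eq_comm, neg_eq_zero] at hp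
    exact ha hp
  have hsB : ν s ≤ B := by
    have h1 := hcub 1
    rw [map_one] at h1
    have h2 : s = Algebra.norm κ (1 - z) - 1 + T + n := by rw [h1]; ring
    rw [h2]
    refine (Valuation.map_add _ _ _).trans (max_le ((Valuation.map_add _ _ _).trans (max_le
      ((Valuation.map_sub _ _ _).trans (max_le hn1 ?_)) hT)) hn)
    rw [map_one]; exact hB
  have hωB : ν ω ≤ B := val_root_le (a := a) (g := g) (by
    have : g = -(ω + ω') := by rw [hs]; ring
    rw [this]; linear_combination -hp) hB haB hgB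
  have hωB' : ν ω' ≤ B := val_root_le (a := a) (g := g) (by
    have : g = -(ω + ω') := by rw [hs]; ring
    rw [this]; linear_combination -hp) hB haB hgB
  -- the two norms
  set u := Algebra.norm κ (algebraMap κ N ω - z) with hu
  set u' := Algebra.norm κ (algebraMap κ N ω' - z) with hu'
  have hQ : u * u' = Algebra.norm κ (z ^ 2 + algebraMap κ N g * z - algebraMap κ N a) := by
    rw [hu, hu', ← map_mul]
    congr 1
    have e1 : algebraMap κ N g = -(algebraMap κ N ω + algebraMap κ N ω') := by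
      rw [← map_add, hs, map_neg, neg_neg]
    have e2 : algebraMap κ N a = -(algebraMap κ N ω * algebraMap κ N ω') := by
      rw [← map_mul, hp, map_neg, neg_neg]
    rw [e1, e2]
    ring
  have hQ0 : Algebra.norm κ (z ^ 2 + algebraMap κ N g * z - algebraMap κ N a) ≠ 0 := by
    intro h0
    rw [h0, map_zero, mul_zero] at h
    exact absurd h (not_lt.mpr zero_le)
  have hu0 : u ≠ 0 := by intro h0; rw [← hQ, h0, zero_mul] at hQ0; exact hQ0 rfl
  have hu0' : u' ≠ 0 := by intro h0; rw [← hQ, h0, mul_zero] at hQ0; exact hQ0 rfl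
  have huB : ν u ≤ B ^ 3 := by
    rw [hu, hcub]
    have hB2 : B ≤ B ^ 3 := by
      calc B = B ^ 1 := (pow_one B).symm
        _ ≤ B ^ 3 := pow_le_pow_right' hB (by norm_num)
    refine (Valuation.map_sub _ _ _).trans (max_le ((Valuation.map_add _ _ _).trans (max_le
      ((Valuation.map_sub _ _ _).trans (max_le ?_ ?_)) ?_)) (hn.trans hB2))
    · rw [map_pow]; exact pow_le_pow_left' hωB 3
    · rw [map_mul, map_pow]
      calc ν T * ν ω ^ 2 ≤ B * B ^ 2 := mul_le_mul' hT (pow_le_pow_left' hωB 2)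
        _ = B ^ 3 := by rw [← pow_succ']
    · rw [map_mul]
      calc ν s * ν ω ≤ B * B := mul_le_mul' hsB hωB
        _ = B ^ 2 := (pow_two B).symm
        _ ≤ B ^ 3 := pow_le_pow_right' hB (by norm_num)
  set σ := n + a * (T + g) with hσ
  have hid : ω' * u - ω * u' = (ω - ω') * σ := by
    rw [hu, hu', hcub, hcub, hσ]
    have e1 : a = -(ω * ω') := by rw [hp, neg_neg]
    have e2 : g = -(ω + ω') := by rw [hs, neg_neg]
    rw [e1, e2]
    ring
  have hA0 : A ≠ 0 := by
    rintro rfl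
    rw [Algebra.norm_zero] at hA
    exact ha hA.symm
  set e : N := algebraMap κ N ω * (algebraMap κ N ω' - z) / (-A * (algebraMap κ N ω - z)) with he
  have hz1 : algebraMap κ N ω - z ≠ 0 := by
    intro h0; apply hu0; rw [hu, h0, Algebra.norm_zero]
  have hNe : Algebra.norm κ e * (ω' * u) = ω ^ 2 * u' := by
    have h1 : e * (-A * (algebraMap κ N ω - z)) = algebraMap κ N ω * (algebraMap κ N ω' - z) :=
      div_mul_cancel₀ _ (mul_ne_zero (neg_ne_zero.mpr hA0) hz1)
    have h2 := congrArg (Algebra.norm κ) h1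
    rw [map_mul, map_mul, map_mul, Algebra.norm_algebraMap, hN, norm_neg hN, hA, ← hu, ← hu',
      ← hp] at h2
    apply mul_left_cancel₀ hω0
    linear_combination h2
  have hNe0 : Algebra.norm κ e ≠ 0 := by
    intro h0
    rw [h0, zero_mul] at hNe
    exact mul_ne_zero (pow_ne_zero 2 hω0) hu0' hNe.symm
  refine ⟨e, ?_⟩
  have h1 : ω / Algebra.norm κ e - 1 = (ω - ω') * σ / (ω * u') := by
    rw [← hid]
    field_simp
    linear_combination (-1 : κ) * hNe
  have h2 : (ω - ω') * σ / (ω * u') = -((ω - ω') * σ * (ω' * u) / (a * (u * u'))) := by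
    have e1 : a = -(ω * ω') := by rw [hp, neg_neg]
    rw [e1]
    field_simp
  rw [h1, h2, Valuation.map_neg, map_div₀, map_mul, map_mul, map_mul, map_mul, hQ]
  set Q := Algebra.norm κ (z ^ 2 + algebraMap κ N g * z - algebraMap κ N a) with hQdef
  have hpos : 0 < ν a * ν Q := mul_pos (zero_lt_iff.mpr ((Valuation.ne_zero_iff _).mpr ha))
    (zero_lt_iff.mpr ((Valuation.ne_zero_iff _).mpr hQ0))
  rw [div_lt_iff₀ hpos]
  have h3 : ν (ω - ω') ≤ B := (Valuation.map_sub _ _ _).trans (max_le hωB hωB')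
  calc ν (ω - ω') * ν σ * (ν ω' * ν u) ≤ B * ν σ * (B * B ^ 3) :=
        mul_le_mul' (mul_le_mul' h3 le_rfl) (mul_le_mul' hωB' huB)
    _ = ν σ * B ^ 5 := by
        rw [← pow_succ', mul_comm B (ν σ), mul_assoc, ← pow_succ']
    _ < ν 9 * ν a * ν Q := h
    _ = ν (3 ^ 2) * (ν a * ν Q) := by
        rw [mul_assoc]; norm_num

/-- The local norm condition when the discriminant is small. -/
theorem locN_of_small (hN : finrank κ N = 3) {ν : Valuation κ Z0} {a g ω ω' : κ} {A : N}
    (hA : Algebra.norm κ A = a) (ha : a ≠ 0) (hs : ω + ω' = -g) (hp : ω * ω' = -a)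
    (h1 : ∀ m : ℕ, ν (m : κ) ≤ 1) (h : ν (g ^ 2 + 4 * a) < ν (81 * g ^ 2)) : LocN N ν ω := by
  have hω0 : ω ≠ 0 := by
    rintro rfl
    rw [zero_mul, eq_comm, neg_eq_zero] at hp
    exact ha hp
  have hω0' : ω' ≠ 0 := by
    rintro rfl
    rw [mul_zero, eq_comm, neg_eq_zero] at hp
    exact ha hp
  have hfd : FiniteDimensional κ N := Module.finite_of_finrank_pos (by omega)
  have hA0 : A ≠ 0 := by
    rintro rfl
    rw [Algebra.norm_zero] at hA
    exact ha hA.symm
  have hd : (ω - ω') ^ 2 = g ^ 2 + 4 * a := by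
    have e2 : g = -(ω + ω') := by rw [hs, neg_neg]
    rw [e2]
    linear_combination (-4 : κ) * hp
  have h2 : ν (ω - ω') < ν (9 * g) := by
    rw [← hd, map_pow] at h
    have h3 : ν (81 * g ^ 2) = ν (9 * g) ^ 2 := by
      rw [← map_pow]; congr 1; ring
    rw [h3] at h
    exact lt_of_pow_lt_pow_left₀ 2 zero_le h
  have h9 : ν 9 ≤ 1 := by simpa using h1 9
  have hv2 : ν 2 ≤ 1 := by simpa using h1 2
  have h3 : ν (ω - ω') < ν g := by
    refine h2.trans_le ?_
    rw [map_mul]
    calc ν 9 * ν g ≤ 1 * ν g := mul_le_mul_left h9 _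
      _ = ν g := one_mul _
  have h4 : ν (2 * ω) = ν g := by
    have e1 : 2 * ω = (ω - ω') - g := by linear_combination hs
    rw [e1, Valuation.map_sub_eq_of_lt_right _ h3]
  have h5 : ν g ≤ ν ω := by
    rw [← h4, map_mul]
    calc ν 2 * ν ω ≤ 1 * ν ω := mul_le_mul_left hv2 _
      _ = ν ω := one_mul _
  set e : N := algebraMap κ N ω / (-A) with he
  have hNe : Algebra.norm κ e * ω' = ω ^ 2 := by
    have h6 : e * (-A) = algebraMap κ N ω := div_mul_cancel₀ _ (neg_ne_zero.mpr hA0)
    have h7 := congrArg (Algebra.norm κ) h6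
    rw [map_mul, Algebra.norm_algebraMap, hN, norm_neg hN, hA, ← hp] at h7
    apply mul_left_cancel₀ hω0
    linear_combination h7
  have hNe0 : Algebra.norm κ e ≠ 0 := by
    intro h0
    rw [h0, zero_mul] at hNe
    exact pow_ne_zero 2 hω0 hNe.symm
  refine ⟨e, ?_⟩
  have h6 : ω / Algebra.norm κ e - 1 = -((ω - ω') / ω) := by
    field_simp
    linear_combination (-1 : κ) * hNe
  have hpos : 0 < ν ω := zero_lt_iff.mpr ((Valuation.ne_zero_iff _).mpr hω0)
  rw [h6, Valuation.map_neg, map_div₀, div_lt_iff₀ hpos]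
  refine h2.trans_le ?_
  rw [map_mul]
  refine mul_le_mul' (le_of_eq ?_) h5
  norm_num

end general

end Vale.Agent.P011.H211
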