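import Vale.Agent.P011.H211.SkLPt
import Vale.Agent.P011.H211.SkGlob
import Vale.Agent.P011.H672.Conic

/-!
Local points of the Skolem equation give the open local criterion nearby.
-/

open Module Polynomial TensorProduct NumberField IsDedekindDomain Topology

namespace Vale.Agent.P011.H211

open Vale.Agent.P011.Arith (Z0)
open Vale.Agent.P011.Even (valued_alg)

section alg

variable {k F : Type} [Field k] [Field F] [Algebra k F] {L : Type} [Field L] [Algebra k L]

theorem mA_det (bas : Basis (Fin 3) k F) (w : F) :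
    (mA bas L w).det = algebraMap k L (Algebra.norm k w) := by
  rw [Algebra.norm_eq_matrix_det bas, RingHom.map_det]
  rfl

theorem mA_trace (bas : Basis (Fin 3) k F) (w : F) :
    (mA bas L w).trace = algebraMap k L (Algebra.trace k F w) := by
  rw [Algebra.trace_eq_matrix_trace bas, AddMonoidHom.map_trace]
  rfl

theorem mA_one_sub (bas : Basis (Fin 3) k F) (w : F) :
    (1 : Matrix (Fin 3) (Fin 3) L) - mA bas L w = mA bas L (1 - w) := by
  change _ - (algebraMap k L).mapMatrix (Algebra.leftMulMatrix bas w) =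
    (algebraMap k L).mapMatrix (Algebra.leftMulMatrix bas (1 - w))
  rw [map_sub, map_sub, map_one, map_one]

theorem mA_mul (bas : Basis (Fin 3) k F) (w z : F) :
    mA bas L (w * z) = mA bas L w * mA bas L z := by
  change (algebraMap k L).mapMatrix (Algebra.leftMulMatrix bas (w * z)) =
    (algebraMap k L).mapMatrix (Algebra.leftMulMatrix bas w) *
      (algebraMap k L).mapMatrix (Algebra.leftMulMatrix bas z)
  rw [map_mul, map_mul]

theorem mA_add (bas : Basis (Fin 3) k F) (w z : F) :
    mA bas L (w + z) = mA bas L w + mA bas L z := by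
  change (algebraMap k L).mapMatrix (Algebra.leftMulMatrix bas (w + z)) =
    (algebraMap k L).mapMatrix (Algebra.leftMulMatrix bas w) +
      (algebraMap k L).mapMatrix (Algebra.leftMulMatrix bas z)
  rw [map_add, map_add]

theorem mA_sub (bas : Basis (Fin 3) k F) (w z : F) :
    mA bas L (w - z) = mA bas L w - mA bas L z := by
  change (algebraMap k L).mapMatrix (Algebra.leftMulMatrix bas (w - z)) =
    (algebraMap k L).mapMatrix (Algebra.leftMulMatrix bas w) -
      (algebraMap k L).mapMatrix (Algebra.leftMulMatrix bas z)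
  rw [map_sub, map_sub]

theorem mA_algebraMap (bas : Basis (Fin 3) k F) (a : k) :
    mA bas L (algebraMap k F a) = algebraMap k L a • 1 := by
  ext i j
  rw [mA, Matrix.map_apply, AlgHom.commutes, Matrix.algebraMap_matrix_apply, Matrix.smul_apply,
    Matrix.one_apply, Algebra.algebraMap_self, RingHom.id_apply, apply_ite (algebraMap k L),
    map_zero, smul_eq_mul, mul_ite, mul_one, mul_zero]

theorem mA_quad (bas : Basis (Fin 3) k F) (z : F) (a g : k) :
    mA bas L z * mA bas L z + algebraMap k L g • mA bas L z - algebraMap k L a • 1 =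
      mA bas L (z ^ 2 + algebraMap k F g * z - algebraMap k F a) := by
  rw [mA_sub, mA_add, mA_mul, mA_algebraMap, mA_algebraMap, pow_two, mA_mul, smul_mul_assoc,
    one_mul]

/-- The exact solution is not a root of `X² + g X - a`. -/
theorem q_ne (hF : finrank k F = 3) (hno : ¬ Nonempty (F →ₐ[k] L)) (bas : Basis (Fin 3) k F)
    {x : Fin 3 → L} {a g : L} (ha : a ≠ 0) (hH : g ^ 2 + 4 * a ≠ 0)
    (h : (mx bas x).det + a * ((mx bas x).trace + g) = 0) :
    (mx bas x * mx bas x + g • mx bas x - a • 1).det ≠ 0 := by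
  have hfd : FiniteDimensional k F := Module.finite_of_finrank_pos (by omega)
  intro h0
  obtain ⟨f, hf, -⟩ := mx_eq bas x
  set basT := Algebra.TensorProduct.basis L bas with hbT
  have hn : ∀ y : L ⊗[k] F, (Algebra.leftMulMatrix basT y).det = 0 → y = 0 := by
    intro y hy
    by_contra hy0
    have h1 := (isUnit_of_ne hF hno hy0).map (Algebra.norm L)
    rw [Algebra.norm_eq_matrix_det basT, hy] at h1
    exact h1.ne_zero rfl
  have h1 : f * f + g • f - a • 1 = 0 := by
    apply hn
    rw [map_sub, map_add, map_mul, map_smul, map_smul, map_one, hf]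
    exact h0
  set M := mx bas x with hM
  set P := M.charpoly with hP
  have hPm : P.Monic := Matrix.charpoly_monic _
  have hPd : P.natDegree = 3 := by rw [hP, Matrix.charpoly_natDegree_eq_dim]; simp
  have hP0 : aeval f P = 0 := by
    have h5 := Matrix.aeval_self_charpoly M
    rw [← hP, ← hf, Polynomial.aeval_algHom_apply] at h5
    exact Algebra.leftMulMatrix_injective basT (by rw [h5, map_zero])
  have hp2 : P.coeff 2 = -M.trace := by
    have := Matrix.trace_eq_neg_charpoly_coeff M
    rw [this, Fintype.card_fin, neg_neg]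
  have hp0 : P.coeff 0 = -M.det := by
    have := Matrix.det_eq_sign_charpoly_coeff M
    rw [this, Fintype.card_fin, ← hP]
    ring
  set s := P.coeff 1 with hs
  have hPe := cubic_eq hPm hPd
  rw [← hs, hp2, hp0] at hPe
  have hCH : f ^ 3 - algebraMap L _ M.trace * f ^ 2 + algebraMap L _ s * f -
      algebraMap L _ M.det = 0 := by
    rw [hPe] at hP0
    simp only [map_add, map_mul, map_pow, aeval_X, aeval_C, map_neg] at hP0
    linear_combination hP0
  have hroot : ∀ c : L, (algebraMap L (Matrix (Fin 3) (Fin 3) L) c - M).det = P.eval c := by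
    intro c
    rw [hP, Matrix.eval_charpoly]
    rfl
  rw [Algebra.smul_def, Algebra.smul_def, mul_one] at h1
  have hnt : Nontrivial (L ⊗[k] F) := (Algebra.leftMulMatrix basT).toRingHom.domain_nontrivial
  have hf0 : f ≠ 0 := by
    intro hf0
    rw [hf0] at h1
    have h4 : algebraMap L (L ⊗[k] F) a = 0 := by linear_combination -h1
    have h5 : IsUnit (algebraMap L (L ⊗[k] F) a) := (IsUnit.mk0 a ha).map _
    rw [h4] at h5
    exact not_isUnit_zero h5
  set e : L := g ^ 2 + a + M.trace * g + s with he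
  have h2 : algebraMap L (L ⊗[k] F) e * f = 0 := by
    have h3 : algebraMap L (L ⊗[k] F) M.det + algebraMap L _ a * (algebraMap L _ M.trace +
        algebraMap L _ g) = 0 := by
      rw [← map_add, ← map_mul, ← map_add, h, map_zero]
    rw [he, map_add, map_add, map_add, map_mul, map_pow]
    linear_combination hCH + h3 + (algebraMap L (L ⊗[k] F) M.trace + algebraMap L _ g - f) * h1
  by_cases he0 : e = 0
  · -- the third root
    have h3 : P.eval (M.trace + g) = 0 := by
      rw [hPe]
      simp only [eval_add, eval_mul, eval_pow, eval_X, eval_C]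
      have h4 : M.det = -a * (M.trace + g) := by linear_combination h
      rw [h4]
      linear_combination (M.trace + g) * (he.symm.trans he0)
    rw [← hroot] at h3
    have h4 : algebraMap L (L ⊗[k] F) (M.trace + g) - f = 0 := by
      apply hn
      rw [map_sub, AlgHom.commutes, hf]
      exact h3
    have h5 : M = algebraMap L (Matrix (Fin 3) (Fin 3) L) (M.trace + g) := by
      have h10 := congrArg (Algebra.leftMulMatrix basT) (sub_eq_zero.mp h4)
      rw [AlgHom.commutes, hf] at h10
      exact h10.symm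
    set c := M.trace + g with hc
    have h6 : M.trace = 3 * c := by
      conv_lhs => rw [h5]
      simp [Matrix.algebraMap_eq_diagonal]
    have h7 : M.det = c ^ 3 := by
      conv_lhs => rw [h5]
      simp [Matrix.algebraMap_eq_diagonal]
    have h8 : g = -2 * c := by linear_combination hc - h6
    rw [h7] at h
    have hc0 : c ≠ 0 := by
      intro hc0
      apply hf0
      rw [← sub_eq_zero.mp h4, hc0, map_zero]
    apply hH
    have h9 : c ^ 2 + a = 0 := by
      have : c * (c ^ 2 + a) = 0 := by linear_combination h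
      exact (mul_eq_zero.mp this).resolve_left hc0
    rw [h8]
    linear_combination 4 * h9
  · have h4 : IsUnit (algebraMap L (L ⊗[k] F) e) := (IsUnit.mk0 e he0).map _
    exact hf0 ((h4.mul_right_eq_zero).mp h2)

end alg

section top

variable {k : Type} [Field k] [NumberField k]

/-- Neighbourhoods contain balls (after helper321). -/
theorem exists_ball (v : HeightOneSpectrum (𝓞 k)) (α : v.adicCompletion k)
    {U : Set (v.adicCompletion k)} (hU : U ∈ 𝓝 α) :
    ∃ γ : Z0, γ ≠ 0 ∧ {y : v.adicCompletion k | Valued.v (y - α) < γ} ⊆ U := by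
  obtain ⟨γ, hγ⟩ := Valued.mem_nhds.1 hU
  refine ⟨MonoidWithZeroHom.ValueGroup₀.embedding γ.1, ?_, fun y hy => hγ ?_⟩
  · exact (_root_.map_ne_zero _).mpr γ.ne_zero
  · exact (Valuation.restrict_lt_iff_lt_embedding _).mpr hy

variable (v : HeightOneSpectrum (𝓞 k)) {X : Type} [TopologicalSpace X]

theorem isOpen_le {f : X → v.adicCompletion k} (hf : Continuous f) {B : Z0} (hB : B ≠ 0) :
    IsOpen {p : X | Valued.v (f p) ≤ B} := by
  rw [isOpen_iff_mem_nhds]
  intro p hp
  have h1 : IsOpen {q : X | Valued.v (f q - f p) < B} :=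
    (W.isOpen_val v B).preimage (hf.sub continuous_const)
  refine Filter.mem_of_superset (h1.mem_nhds ?_) fun q hq => ?_
  · show Valued.v (f p - f p) < B
    rw [sub_self, map_zero]
    exact zero_lt_iff.mpr hB
  · have h2 : f q = (f q - f p) + f p := by ring
    show Valued.v (f q) ≤ B
    rw [h2]
    exact (Valuation.map_add _ _ _).trans (max_le (le_of_lt hq) hp)

theorem isOpen_lt {f h : X → v.adicCompletion k} (hf : Continuous f) (hh : Continuous h)
    {c : Z0} (hc : c ≠ 0) : IsOpen {p : X | Valued.v (f p) * c < Valued.v (h p)} := by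
  rw [isOpen_iff_mem_nhds]
  intro p hp
  have hp' : Valued.v (f p) * c < Valued.v (h p) := hp
  have hhp : (Valued.v (h p) : Z0) ≠ 0 := fun h0 => by
    rw [h0] at hp'
    exact absurd hp' not_lt_zero
  have hcp : (0 : Z0) < c := zero_lt_iff.mpr hc
  have h1 : IsOpen {q : X | Valued.v (h q - h p) < Valued.v (h p)} :=
    (W.isOpen_val v _).preimage (hh.sub continuous_const)
  have h2 : IsOpen {q : X | Valued.v (f q) < Valued.v (h p) / c} :=
    (W.isOpen_val v _).preimage hf
  refine Filter.mem_of_superset ((h1.inter h2).mem_nhds ⟨?_, ?_⟩) fun q hq => ?_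
  · show Valued.v (h p - h p) < Valued.v (h p)
    rw [sub_self, map_zero]
    exact zero_lt_iff.mpr hhp
  · show Valued.v (f p) < Valued.v (h p) / c
    rwa [lt_div_iff₀ hcp]
  · obtain ⟨hq1, hq2⟩ := hq
    have hq1' : Valued.v (h q - h p) < Valued.v (h p) := hq1
    have hq2' : Valued.v (f q) < Valued.v (h p) / c := hq2
    show Valued.v (f q) * c < Valued.v (h q)
    have h3 : h q = (h q - h p) + h p := by ring
    rw [h3, Valuation.map_add_eq_of_lt_right _ hq1', ← lt_div_iff₀ hcp]
    exact hq2'

end top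

section near

variable {k F : Type} [Field k] [NumberField k] [Field F] [Algebra k F]

/-- The first criterion for a matrix over the completion. -/
def CritM (v : HeightOneSpectrum (𝓞 k)) (B : Z0) (M : Matrix (Fin 3) (Fin 3) (v.adicCompletion k))
    (a g : v.adicCompletion k) : Prop :=
  Valued.v g ≤ B ∧ Valued.v a ≤ B ∧ Valued.v M.trace ≤ B ∧ Valued.v M.det ≤ B ∧
    Valued.v (1 - M).det ≤ B ∧ Valued.v (M.det + a * (M.trace + g)) * B ^ 5 <
      Valued.v (9 * a * (M * M + g • M - a • 1).det)

theorem critM_open (v : HeightOneSpectrum (𝓞 k)) {B : Z0} (hB : B ≠ 0) :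
    IsOpen {p : Matrix (Fin 3) (Fin 3) (v.adicCompletion k) × v.adicCompletion k ×
      v.adicCompletion k | CritM v B p.1 p.2.1 p.2.2} := by
  have c1 : Continuous fun p : Matrix (Fin 3) (Fin 3) (v.adicCompletion k) ×
      v.adicCompletion k × v.adicCompletion k => p.1 := continuous_fst
  have c2 : Continuous fun p : Matrix (Fin 3) (Fin 3) (v.adicCompletion k) ×
      v.adicCompletion k × v.adicCompletion k => p.2.1 := continuous_fst.comp continuous_snd
  have c3 : Continuous fun p : Matrix (Fin 3) (Fin 3) (v.adicCompletion k) ×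
      v.adicCompletion k × v.adicCompletion k => p.2.2 := continuous_snd.comp continuous_snd
  have cT := c1.matrix_trace
  have cD := c1.matrix_det
  refine (isOpen_le v c3 hB).inter ((isOpen_le v c2 hB).inter ((isOpen_le v cT hB).inter
    ((isOpen_le v cD hB).inter ((isOpen_le v (continuous_const.sub c1).matrix_det hB).inter
    (isOpen_lt v (cD.add (c2.mul (cT.add c3))) ((continuous_const.mul c2).mul
      (((c1.mul c1).add (c3.smul c1)).sub (c2.smul continuous_const)).matrix_det)
      (pow_ne_zero 5 hB))))))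

theorem crit1_of_critM (bas : Basis (Fin 3) k F) {v : HeightOneSpectrum (𝓞 k)} {B : Z0}
    (hB : 1 ≤ B) {z : F} {a g : k}
    (h : CritM v B (mA bas _ z) (algebraMap k _ a) (algebraMap k _ g)) :
    Crit1 F (v.valuation k) a g := by
  obtain ⟨h4, h5, h6, h7, h8, h9⟩ := h
  rw [mA_quad, mA_det, mA_det, mA_trace] at h9
  rw [mA_one_sub, mA_det, valued_alg] at h8
  rw [mA_det, valued_alg] at h7
  rw [mA_trace, valued_alg] at h6
  rw [valued_alg] at h5 h4
  have e1 : (9 : v.adicCompletion k) = algebraMap k _ 9 := (map_ofNat _ 9).symm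
  rw [e1, ← map_add, ← map_mul, ← map_add, ← map_mul, ← map_mul, valued_alg, valued_alg,
    map_mul (v.valuation k), map_mul (v.valuation k)] at h9
  exact ⟨z, B, hB, h4, h5, h6, h7, h8, h9⟩

theorem critM_of_crit1 (bas : Basis (Fin 3) k F) {v : HeightOneSpectrum (𝓞 k)} {a g : k}
    (h : Crit1 F (v.valuation k) a g) : ∃ (y : Fin 3 → k) (B : Z0), 1 ≤ B ∧
      CritM v B (mx bas fun i => algebraMap k _ (y i)) (algebraMap k _ a) (algebraMap k _ g) := by
  obtain ⟨z, B, hB, h4, h5, h6, h7, h8, h9⟩ := h
  refine ⟨fun i => bas.repr z i, B, hB, ?_⟩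
  have e1 : (9 : v.adicCompletion k) = algebraMap k _ 9 := (map_ofNat _ 9).symm
  rw [mx_k, bas.sum_repr, CritM, mA_quad, mA_one_sub, mA_det, mA_det, mA_det, mA_trace, e1,
    ← map_add, ← map_mul, ← map_add, ← map_mul, ← map_mul, valued_alg, valued_alg, valued_alg,
    valued_alg, valued_alg, valued_alg, valued_alg, map_mul (v.valuation k),
    map_mul (v.valuation k)]
  exact ⟨h4, h5, h6, h7, h8, h9⟩

theorem mx_cont (bas : Basis (Fin 3) k F) (v : HeightOneSpectrum (𝓞 k)) :
    Continuous fun x : Fin 3 → v.adicCompletion k => mx bas x := by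
  refine continuous_finsetSum _ fun i _ => ?_
  exact (continuous_apply i).smul continuous_const

omit [Field F] [Algebra k F] in
theorem open_prod (v : HeightOneSpectrum (𝓞 k))
    {S : Set ((Fin 3 → v.adicCompletion k) × v.adicCompletion k × v.adicCompletion k)}
    (hS : IsOpen S) {x : Fin 3 → v.adicCompletion k} {a0 g0 : k}
    (h : (x, algebraMap k _ a0, algebraMap k _ g0) ∈ S) :
    ∃ (y : Fin 3 → k) (γ : Z0), γ ≠ 0 ∧ ∀ a g : k, v.valuation k (a - a0) < γ →
      v.valuation k (g - g0) < γ →
      ((fun i => algebraMap k _ (y i)), algebraMap k _ a, algebraMap k _ g) ∈ S := by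
  have hU := hS.mem_nhds h
  rw [mem_nhds_prod_iff] at hU
  obtain ⟨U1, hU1, U', hU', hsub⟩ := hU
  rw [mem_nhds_prod_iff] at hU'
  obtain ⟨U2, hU2, U3, hU3, hsub'⟩ := hU'
  have hdense : DenseRange (Pi.map (fun (_ : Fin 3) =>
      (algebraMap k (v.adicCompletion k) : k → v.adicCompletion k))) :=
    DenseRange.piMap fun _ => v.denseRange_algebraMap (K := k)
  obtain ⟨y, hy⟩ := hdense.mem_nhds hU1
  obtain ⟨γ2, hγ2, h2⟩ := exists_ball v _ hU2
  obtain ⟨γ3, hγ3, h3⟩ := exists_ball v _ hU3
  refine ⟨y, min γ2 γ3, ?_, fun a g ha hg => ?_⟩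
  · rcases min_choice γ2 γ3 with h | h <;> rw [h]
    · exact hγ2
    · exact hγ3
  have ha' : algebraMap k _ a ∈ U2 := h2 (by
    show Valued.v (algebraMap k _ a - algebraMap k _ a0) < γ2
    rw [← map_sub, valued_alg]
    exact ha.trans_le (min_le_left _ _))
  have hg' : algebraMap k _ g ∈ U3 := h3 (by
    show Valued.v (algebraMap k _ g - algebraMap k _ g0) < γ3
    rw [← map_sub, valued_alg]
    exact hg.trans_le (min_le_right _ _))
  exact hsub (Set.mk_mem_prod hy (hsub' (Set.mk_mem_prod ha' hg')))

theorem critM_open' (bas : Basis (Fin 3) k F) (v : HeightOneSpectrum (𝓞 k)) {B : Z0}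
    (hB : B ≠ 0) : IsOpen {p : (Fin 3 → v.adicCompletion k) × v.adicCompletion k ×
      v.adicCompletion k | CritM v B (mx bas p.1) p.2.1 p.2.2} :=
  (critM_open v hB).preimage (((mx_cont bas v).comp continuous_fst).prodMk continuous_snd)

theorem near_aux (bas : Basis (Fin 3) k F) {v : HeightOneSpectrum (𝓞 k)} {B : Z0} (hB : 1 ≤ B)
    {x : Fin 3 → v.adicCompletion k} {a0 g0 : k}
    (h : CritM v B (mx bas x) (algebraMap k _ a0) (algebraMap k _ g0)) :
    ∃ γ : Z0, γ ≠ 0 ∧ ∀ a g : k, v.valuation k (a - a0) < γ → v.valuation k (g - g0) < γ →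
      Crit1 F (v.valuation k) a g := by
  have hB0 : B ≠ 0 := fun h0 => by
    rw [h0] at hB
    exact absurd hB (not_le.mpr zero_lt_one)
  obtain ⟨y, γ, hγ, hy⟩ := open_prod v (critM_open' bas v hB0) h
  refine ⟨γ, hγ, fun a g ha hg => ?_⟩
  have hmem : CritM v B (mx bas fun i => algebraMap k _ (y i)) (algebraMap k _ a)
      (algebraMap k _ g) := hy a g ha hg
  rw [mx_k] at hmem
  exact crit1_of_critM bas hB hmem

omit [Field F] [Algebra k F] in
theorem crit2_open {v : HeightOneSpectrum (𝓞 k)} {a0 g0 : k}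
    (h : Crit2 (v.valuation k) a0 g0) : ∃ γ : Z0, γ ≠ 0 ∧ ∀ a g : k,
      v.valuation k (a - a0) < γ → v.valuation k (g - g0) < γ → Crit2 (v.valuation k) a g := by
  unfold Crit2 at h ⊢
  set ρ := v.valuation k (81 * g0 ^ 2) with hρ
  have hρ0 : 0 < ρ := zero_le.trans_lt h
  have hg0 : v.valuation k g0 ≠ 0 := by
    intro h0
    rw [hρ, map_mul, map_pow, h0] at hρ0
    simp at hρ0
  have hgp : 0 < v.valuation k g0 := zero_lt_iff.mpr hg0
  refine ⟨min ρ (min (ρ / v.valuation k g0) (v.valuation k g0)), ?_, fun a g ha hg => ?_⟩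
  · exact (lt_min hρ0 (lt_min (div_pos hρ0 hgp) hgp)).ne'
  have hg1 : v.valuation k (g - g0) < v.valuation k g0 :=
    hg.trans_le ((min_le_right _ _).trans (min_le_right _ _))
  have hg2 : v.valuation k (g - g0) * v.valuation k g0 < ρ := by
    rw [← lt_div_iff₀ hgp]
    exact hg.trans_le ((min_le_right _ _).trans (min_le_left _ _))
  have ha1 : v.valuation k (a - a0) < ρ := ha.trans_le (min_le_left _ _)
  have hgg : v.valuation k g = v.valuation k g0 := by
    have e : g = (g - g0) + g0 := by ring
    rw [e, Valuation.map_add_eq_of_lt_right _ hg1]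
  have h81 : v.valuation k (81 * g ^ 2) = ρ := by
    rw [hρ, map_mul, map_mul, map_pow, map_pow, hgg]
  rw [h81]
  have e : g ^ 2 + 4 * a = (g0 ^ 2 + 4 * a0) + ((g - g0) * (g + g0) + 4 * (a - a0)) := by ring
  rw [e]
  refine (Valuation.map_add _ _ _).trans_lt (max_lt h
    ((Valuation.map_add _ _ _).trans_lt (max_lt ?_ ?_)))
  · rw [map_mul]
    refine (mul_le_mul' le_rfl ?_).trans_lt hg2
    exact (Valuation.map_add _ _ _).trans (max_le hgg.le le_rfl)
  · rw [map_mul]
    have h4 : v.valuation k (4 : k) ≤ 1 := by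
      have := val_nat_le v 4
      simpa using this
    calc _ ≤ 1 * v.valuation k (a - a0) := mul_le_mul' h4 le_rfl
      _ = v.valuation k (a - a0) := one_mul _
      _ < ρ := ha1

/-- The local criterion is open. -/
theorem good_open (hF : finrank k F = 3) {v : HeightOneSpectrum (𝓞 k)} {a0 g0 : k}
    (h : Good F (v.valuation k) a0 g0) : ∃ γ : Z0, γ ≠ 0 ∧ ∀ a g : k,
      v.valuation k (a - a0) < γ → v.valuation k (g - g0) < γ → Good F (v.valuation k) a g := by
  have hfd : FiniteDimensional k F := Module.finite_of_finrank_pos (by omega)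
  let bas : Basis (Fin 3) k F := Module.finBasisOfFinrankEq k F hF
  rcases h with h | h
  · obtain ⟨y, B, hB, h1⟩ := critM_of_crit1 bas h
    obtain ⟨γ, hγ, h2⟩ := near_aux bas hB h1
    exact ⟨γ, hγ, fun a g ha hg => Or.inl (h2 a g ha hg)⟩
  · obtain ⟨γ, hγ, h2⟩ := crit2_open h
    exact ⟨γ, hγ, fun a g ha hg => Or.inr (h2 a g ha hg)⟩

/-- A local point gives the local criterion nearby. -/
theorem good_near (hF : finrank k F = 3) {v : HeightOneSpectrum (𝓞 k)}
    (hno : ¬ Nonempty (F →ₐ[k] v.adicCompletion k)) {A0 : F} (hA0 : A0 ≠ 0) {G0 : k}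
    (h : LocPt v A0 G0) : ∃ γ : Z0, γ ≠ 0 ∧ ∀ a g : k,
      v.valuation k (a - Algebra.norm k A0) < γ → v.valuation k (g - G0) < γ →
      Good F (v.valuation k) a g := by
  have hfd : FiniteDimensional k F := Module.finite_of_finrank_pos (by omega)
  have hNA : Algebra.norm k A0 ≠ 0 := by rwa [Ne, Algebra.norm_eq_zero_iff]
  by_cases hH : G0 ^ 2 + 4 * Algebra.norm k A0 = 0
  · have hG0 : G0 ≠ 0 := by
      rintro rfl
      apply hNA
      have : (4 : k) * Algebra.norm k A0 = 0 := by linear_combination hH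
      exact (mul_eq_zero.mp this).resolve_left (by norm_num)
    refine good_open hF (Or.inr ?_)
    rw [Crit2, hH, map_zero, zero_lt_iff, Valuation.ne_zero_iff]
    exact mul_ne_zero (by norm_num) (pow_ne_zero 2 hG0)
  let bas : Basis (Fin 3) k F := Module.finBasisOfFinrankEq k F hF
  obtain ⟨f, hf⟩ := h
  set basT := Algebra.TensorProduct.basis (v.adicCompletion k) bas with hbT
  set x : Fin 3 → v.adicCompletion k := fun i => basT.repr ((1 ⊗ₜ A0) * f) i with hx
  have hM : mx bas x = mA bas _ A0 * Algebra.leftMulMatrix basT f := by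
    rw [hx, ← lmm_eq, map_mul, lmm_tmul]
  set a : v.adicCompletion k := algebraMap k _ (Algebra.norm k A0) with ha
  set g : v.adicCompletion k := algebraMap k _ G0 with hg
  have heq : (mx bas x).det + a * ((mx bas x).trace + g) = 0 := by
    rw [sc_eq bas, Sc] at hf
    rw [hM, Matrix.det_mul, mA_det, ← ha]
    linear_combination a * hf
  have ha0 : a ≠ 0 := (_root_.map_ne_zero _).mpr hNA
  have hH' : g ^ 2 + 4 * a ≠ 0 := by
    have e : g ^ 2 + 4 * a = algebraMap k _ (G0 ^ 2 + 4 * Algebra.norm k A0) := by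
      rw [map_add, map_pow, map_mul, map_ofNat]
    rw [e]
    exact (_root_.map_ne_zero _).mpr hH
  have hq := q_ne hF hno bas ha0 hH' heq
  set B : Z0 := max 1 (max (Valued.v g) (max (Valued.v a) (max (Valued.v (mx bas x).trace)
    (max (Valued.v (mx bas x).det) (Valued.v (1 - mx bas x).det))))) with hB
  have hc : CritM v B (mx bas x) a g := by
    refine ⟨?_, ?_, ?_, ?_, ?_, ?_⟩
    · exact (le_max_left _ _).trans (le_max_right _ _)
    · exact ((le_max_left _ _).trans (le_max_right _ _)).trans (le_max_right _ _)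
    · exact (((le_max_left _ _).trans (le_max_right _ _)).trans (le_max_right _ _)).trans
        (le_max_right _ _)
    · exact ((((le_max_left _ _).trans (le_max_right _ _)).trans (le_max_right _ _)).trans
        (le_max_right _ _)).trans (le_max_right _ _)
    · exact ((((le_max_right _ _).trans (le_max_right _ _)).trans (le_max_right _ _)).trans
        (le_max_right _ _)).trans (le_max_right _ _)
    · rw [heq, map_zero, zero_mul, zero_lt_iff, Valuation.ne_zero_iff]
      have h9 : (9 : v.adicCompletion k) ≠ 0 := by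
        have e1 : (9 : v.adicCompletion k) = algebraMap k _ 9 := (map_ofNat _ 9).symm
        rw [e1]
        exact (_root_.map_ne_zero _).mpr (by norm_num)
      exact mul_ne_zero (mul_ne_zero h9 ha0) hq
  obtain ⟨γ, hγ, h2⟩ := near_aux bas (le_max_left _ _) hc
  exact ⟨γ, hγ, fun a g ha hg => Or.inl (h2 a g ha hg)⟩

end near

end Vale.Agent.P011.H211
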