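import Vale.Agent.P011.H211.SkLoc
import Vale.Agent.P011.W.LocNorm

/-!
A cubic extension with a point over the completion: everything is a local norm.
-/

open Module Polynomial NumberField IsDedekindDomain

namespace Vale.Agent.P011.H211

open Vale.Agent.P011.Arith (Z0 exists_below val_above val_lt_val_iff)
open Vale.Agent.P011.Even (valued_alg)

section poly

variable {κ N : Type} [Field κ] [Field N] [Algebra κ N]

/-- The characteristic polynomial of an element of a cubic extension. -/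
theorem exists_poly (h3 : finrank κ N = 3) (θ : N) :
    ∃ P : κ[X], P.Monic ∧ P.natDegree = 3 ∧ aeval θ P = 0 ∧
      ∀ c : κ, Algebra.norm κ (algebraMap κ N c - θ) = P.eval c := by
  have hfd : FiniteDimensional κ N := Module.finite_of_finrank_pos (by omega)
  let b : Basis (Fin 3) κ N := Module.finBasisOfFinrankEq κ N h3
  refine ⟨(Algebra.leftMulMatrix b θ).charpoly, Matrix.charpoly_monic _, ?_, ?_, fun c => ?_⟩
  · rw [Matrix.charpoly_natDegree_eq_dim]; simp
  · have h5 := Matrix.aeval_self_charpoly (Algebra.leftMulMatrix b θ)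
    rw [Polynomial.aeval_algHom_apply] at h5
    exact Algebra.leftMulMatrix_injective b (by rw [h5, map_zero])
  · rw [Matrix.eval_charpoly, Algebra.norm_eq_matrix_det b, map_sub, AlgHom.commutes]
    rfl

/-- The characteristic polynomial is irreducible. -/
theorem irred_poly (h3 : finrank κ N = 3) {θ : N} (hθ : θ ∉ (algebraMap κ N).range) {P : κ[X]}
    (hm : P.Monic) (hd : P.natDegree = 3) (h0 : aeval θ P = 0) : Irreducible P := by
  have hfd : FiniteDimensional κ N := Module.finite_of_finrank_pos (by omega)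
  have hint : IsIntegral κ θ := Algebra.IsIntegral.isIntegral θ
  have h1 : IntermediateField.adjoin κ {θ} = ⊤ := by
    have hdvd : finrank κ (IntermediateField.adjoin κ {θ}) ∣ 3 := by
      rw [← h3]
      exact ⟨_, (finrank_mul_finrank κ (IntermediateField.adjoin κ {θ}) N).symm⟩
    rcases (Nat.dvd_prime Nat.prime_three).mp hdvd with h | h
    · exfalso
      rw [IntermediateField.finrank_eq_one_iff] at h
      have h2 := IntermediateField.mem_adjoin_simple_self κ θ
      rw [h, IntermediateField.mem_bot] at h2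
      exact hθ h2
    · exact IntermediateField.eq_of_le_of_finrank_eq le_top
        (by rw [h, IntermediateField.finrank_top', h3])
  have h2 : (minpoly κ θ).natDegree = 3 := by
    rw [← IntermediateField.adjoin.finrank hint, h1, IntermediateField.finrank_top', h3]
  have h4 : P = minpoly κ θ :=
    eq_of_monic_of_dvd_of_natDegree_le (minpoly.monic hint) hm (minpoly.dvd κ θ h0)
      (by rw [hd, h2])
  rw [h4]
  exact minpoly.irreducible hint

theorem cubic_eq {P : κ[X]} (hm : P.Monic) (hd : P.natDegree = 3) :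
    P = X ^ 3 + C (P.coeff 2) * X ^ 2 + C (P.coeff 1) * X + C (P.coeff 0) := by
  have h2 : P.coeff 3 = 1 := by
    have := hm.coeff_natDegree
    rwa [hd] at this
  conv_lhs => rw [P.as_sum_range_C_mul_X_pow, hd]
  rw [Finset.sum_range_succ, Finset.sum_range_succ, Finset.sum_range_succ, Finset.sum_range_succ,
    Finset.sum_range_zero, h2, C_1]
  ring

end poly

section bound

variable {κ : Type} [Field κ]

theorem exists_bound (ν : Valuation κ Z0) (u : κ[X]) (B : Z0) :
    ∃ M : Z0, 1 ≤ M ∧ ∀ b : κ, ν b ≤ B → ν (u.eval b) ≤ M := by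
  induction u using Polynomial.induction_on' with
  | add p q hp hq =>
    obtain ⟨M, hM, h1⟩ := hp
    obtain ⟨M', hM', h2⟩ := hq
    refine ⟨max M M', le_max_of_le_left hM, fun b hb => ?_⟩
    rw [eval_add]
    exact (Valuation.map_add _ _ _).trans (max_le_max (h1 b hb) (h2 b hb))
  | monomial n a =>
    refine ⟨max 1 (ν a * B ^ n), le_max_left _ _, fun b hb => ?_⟩
    rw [eval_monomial, map_mul, map_pow]
    exact (mul_le_mul' le_rfl (pow_le_pow_left' hb n)).trans (le_max_right _ _)

end bound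

section norm

variable {κ N : Type} [Field κ] [CharZero κ] [Field N] [Algebra κ N]

/-- If the characteristic polynomial of a generator has approximate roots, then every element is
close to a norm. -/
theorem locN_of_rootApp (h3 : finrank κ N = 3) {ν : Valuation κ Z0}
    (hν : ∀ m : ℕ, ν (m : κ) ≤ 1) (h9 : ν (3 ^ 2) ≠ 0) {θ : N}
    (hθ : θ ∉ (algebraMap κ N).range)
    (happ : ∀ γ : Z0, γ ≠ 0 → ∃ b : κ, ν (Algebra.norm κ (algebraMap κ N b - θ)) < γ)
    {β : κ} (hβ : β ≠ 0) : LocN N ν β := by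
  have hfd : FiniteDimensional κ N := Module.finite_of_finrank_pos (by omega)
  obtain ⟨P, hm, hd, h0, hP⟩ := exists_poly h3 θ
  have hirr := irred_poly h3 hθ hm hd h0
  have hsep : IsCoprime P (derivative P) := hirr.separable
  obtain ⟨u, w, huw⟩ := hsep
  set p0 := P.coeff 0
  set p1 := P.coeff 1
  set p2 := P.coeff 2
  have hPe : ∀ b : κ, P.eval b = b ^ 3 + p2 * b ^ 2 + p1 * b + p0 := fun b => by
    rw [cubic_eq hm hd]; simp [p0, p1, p2]
  have hPd : ∀ b : κ, (derivative P).eval b = 3 * b ^ 2 + 2 * p2 * b + p1 := fun b => by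
    rw [cubic_eq hm hd]; simp [p1, p2]; ring
  set Bd : Z0 := max 1 (max (ν p0) (max (ν p1) (ν p2))) with hBdd
  have hBd : 1 ≤ Bd := le_max_left _ _
  have hp0 : ν p0 ≤ Bd := (le_max_left _ _).trans (le_max_right _ _)
  have hp1 : ν p1 ≤ Bd := ((le_max_left _ _).trans (le_max_right _ _)).trans (le_max_right _ _)
  have hp2 : ν p2 ≤ Bd := ((le_max_right _ _).trans (le_max_right _ _)).trans (le_max_right _ _)
  have hbB : ∀ b : κ, ν (P.eval b) ≤ 1 → ν b ≤ Bd := by
    intro b hb
    by_contra hlt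
    push Not at hlt
    have hb1 : 1 < ν b := hBd.trans_lt hlt
    have hpos : 0 < ν b := zero_lt_one.trans hb1
    have e1 : b ^ 3 = P.eval b - (p2 * b ^ 2 + p1 * b + p0) := by rw [hPe]; ring
    have h5 : ν (p2 * b ^ 2 + p1 * b + p0) < ν (b ^ 3) := by
      refine Valuation.map_add_lt _ (Valuation.map_add_lt _ ?_ ?_) ?_
      · rw [map_mul, map_pow, map_pow, pow_succ' _ 2]
        exact mul_lt_mul_of_pos_right (hp2.trans_lt hlt) (pow_pos hpos 2)
      · rw [map_mul, map_pow]
        calc ν p1 * ν b < ν b * ν b := mul_lt_mul_of_pos_right (hp1.trans_lt hlt) hpos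
          _ = ν b ^ 2 := (pow_two _).symm
          _ ≤ ν b ^ 3 := pow_le_pow_right' hb1.le (by norm_num)
      · rw [map_pow]
        calc ν p0 < ν b := hp0.trans_lt hlt
          _ = ν b ^ 1 := (pow_one _).symm
          _ ≤ ν b ^ 3 := pow_le_pow_right' hb1.le (by norm_num)
    have h6 : ν (P.eval b) < ν (b ^ 3) := by
      refine hb.trans_lt ?_
      rw [map_pow]
      exact one_lt_pow₀ hb1 (by norm_num)
    have h7 : ν (b ^ 3) < ν (b ^ 3) := by
      conv_lhs => rw [e1]
      exact (Valuation.map_sub _ _ _).trans_lt (max_lt h6 h5)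
    exact lt_irrefl _ h7
  obtain ⟨M1, hM1, hu⟩ := exists_bound ν u Bd
  obtain ⟨M2, hM2, hw⟩ := exists_bound ν w Bd
  set M := max M1 M2 with hM
  have hM' : 1 ≤ M := hM1.trans (le_max_left _ _)
  have hM0 : M ≠ 0 := (zero_lt_one.trans_le hM').ne'
  set Cc := max 1 (ν (β - 1) * M) with hCc
  have hCc1 : 1 ≤ Cc := le_max_left _ _
  have hC0 : Bd * Cc ^ 3 ≠ 0 :=
    mul_ne_zero (zero_lt_one.trans_le hBd).ne' (pow_ne_zero 3 (zero_lt_one.trans_le hCc1).ne')
  have hνβ : ν β ≠ 0 := (Valuation.ne_zero_iff _).mpr hβ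
  set γ : Z0 := min 1 (min M⁻¹ (ν (3 ^ 2) * ν β * (Bd * Cc ^ 3)⁻¹)) with hγ
  have hγ0 : γ ≠ 0 := by
    rw [hγ]
    rcases min_choice 1 (min M⁻¹ (ν (3 ^ 2) * ν β * (Bd * Cc ^ 3)⁻¹)) with h | h <;> rw [h]
    · exact one_ne_zero
    rcases min_choice M⁻¹ (ν (3 ^ 2) * ν β * (Bd * Cc ^ 3)⁻¹) with h | h <;> rw [h]
    · exact inv_ne_zero hM0
    · exact mul_ne_zero (mul_ne_zero h9 hνβ) (inv_ne_zero hC0)
  obtain ⟨b, hb⟩ := happ γ hγ0
  rw [hP] at hb
  have hb1 : ν (P.eval b) < 1 := hb.trans_le (min_le_left _ _)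
  have hb2 : ν (P.eval b) < M⁻¹ := hb.trans_le ((min_le_right _ _).trans (min_le_left _ _))
  have hb3 : ν (P.eval b) * (Bd * Cc ^ 3) < ν (3 ^ 2) * ν β := by
    have h8 := hb.trans_le ((min_le_right _ _).trans (min_le_right _ _))
    rwa [← div_eq_mul_inv, lt_div_iff₀ (zero_lt_iff.mpr hC0)] at h8
  have hbb : ν b ≤ Bd := hbB b hb1.le
  have hPd1 : 1 ≤ ν ((derivative P).eval b) * M := by
    have h8 : u.eval b * P.eval b + w.eval b * (derivative P).eval b = 1 := by
      have := congrArg (Polynomial.eval b) huw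
      simpa using this
    by_contra hlt
    push Not at hlt
    have h10 : ν (u.eval b * P.eval b) < 1 := by
      rw [map_mul]
      calc ν (u.eval b) * ν (P.eval b) ≤ M * ν (P.eval b) :=
            mul_le_mul_left ((hu b hbb).trans (le_max_left _ _)) _
        _ < M * M⁻¹ := mul_lt_mul_of_pos_left hb2 (zero_lt_iff.mpr hM0)
        _ = 1 := mul_inv_cancel₀ hM0
    have h11 : ν (w.eval b * (derivative P).eval b) < 1 := by
      rw [map_mul, mul_comm]
      exact (mul_le_mul' le_rfl ((hw b hbb).trans (le_max_right _ _))).trans_lt hlt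
    have h12 := Valuation.map_add_lt ν h10 h11
    rw [h8, map_one] at h12
    exact lt_irrefl _ h12
  set D := (derivative P).eval b with hD
  have hD0 : D ≠ 0 := by
    intro h
    rw [h, map_zero, zero_mul] at hPd1
    exact absurd hPd1 (by simp)
  have hνD : 0 < ν D := zero_lt_iff.mpr ((Valuation.ne_zero_iff _).mpr hD0)
  set c := (β - 1) / D with hc
  have hcC : ν c ≤ Cc := by
    rw [hc, map_div₀, div_le_iff₀ hνD]
    calc ν (β - 1) = ν (β - 1) * 1 := (mul_one _).symm
      _ ≤ ν (β - 1) * (ν D * M) := mul_le_mul_right hPd1 _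
      _ = (ν (β - 1) * M) * ν D := by rw [mul_comm (ν D) M, mul_assoc]
      _ ≤ Cc * ν D := mul_le_mul_left (le_max_right _ _) _
  have hθb : algebraMap κ N b - θ ≠ 0 := by
    intro h
    exact hθ ⟨b, sub_eq_zero.mp h⟩
  have hPb0 : P.eval b ≠ 0 := by
    rw [← hP]
    exact (Algebra.norm_eq_zero_iff).not.mpr hθb
  set p := P.eval b with hp
  set b' := b + c * p with hb'
  set ε := p * ((3 * b + p2) * c ^ 2 + c ^ 3 * p) with hε
  have hPb' : P.eval b' = p * (β + ε) := by
    have e1 : c * D = β - 1 := div_mul_cancel₀ _ hD0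
    have e2 : D = 3 * b ^ 2 + 2 * p2 * b + p1 := hPd b
    have e3 : p = b ^ 3 + p2 * b ^ 2 + p1 * b + p0 := hPe b
    have e4 : β = c * (3 * b ^ 2 + 2 * p2 * b + p1) + 1 := by rw [← e2, e1]; ring
    rw [hPe, hb', hε, e4]
    linear_combination (-1 : κ) * e3
  have hνε : ν ε < ν (3 ^ 2) * ν β := by
    refine lt_of_le_of_lt ?_ hb3
    rw [hε, map_mul]
    refine mul_le_mul_right ?_ _
    have h3b : ν (3 * b + p2) ≤ Bd := by
      refine (Valuation.map_add _ _ _).trans (max_le ?_ hp2)
      rw [map_mul]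
      have h33 : ν 3 ≤ 1 := by simpa using hν 3
      calc ν 3 * ν b ≤ 1 * ν b := mul_le_mul_left h33 _
        _ = ν b := one_mul _
        _ ≤ Bd := hbb
    refine (Valuation.map_add _ _ _).trans (max_le ?_ ?_)
    · rw [map_mul, map_pow]
      exact mul_le_mul' h3b ((pow_le_pow_left' hcC 2).trans (pow_le_pow_right' hCc1 (by norm_num)))
    · rw [map_mul, map_pow]
      calc ν c ^ 3 * ν p ≤ Cc ^ 3 * 1 := mul_le_mul' (pow_le_pow_left' hcC 3) hb1.le
        _ = 1 * Cc ^ 3 := mul_comm _ _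
        _ ≤ Bd * Cc ^ 3 := mul_le_mul_left hBd _
  have h9' : ν (3 ^ 2) ≤ 1 := by
    have := hν 9
    norm_num at this ⊢
    exact this
  have hνε' : ν ε < ν β := hνε.trans_le (by
    calc ν (3 ^ 2) * ν β ≤ 1 * ν β := mul_le_mul_left h9' _
      _ = ν β := one_mul _)
  have hβε : ν (β + ε) = ν β := Valuation.map_add_eq_of_lt_left _ hνε'
  have hβε0 : β + ε ≠ 0 := (Valuation.ne_zero_iff ν).mp (by rw [hβε]; exact hνβ)
  refine ⟨(algebraMap κ N b' - θ) / (algebraMap κ N b - θ), ?_⟩
  have hNe : Algebra.norm κ ((algebraMap κ N b' - θ) / (algebraMap κ N b - θ)) = β + ε := by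
    have h13 : (algebraMap κ N b' - θ) / (algebraMap κ N b - θ) * (algebraMap κ N b - θ) =
      algebraMap κ N b' - θ := div_mul_cancel₀ _ hθb
    have h14 := congrArg (Algebra.norm κ) h13
    rw [map_mul, hP, hP, hPb', ← hp, mul_comm] at h14
    exact mul_left_cancel₀ hPb0 h14
  rw [hNe]
  have e5 : β / (β + ε) - 1 = -(ε / (β + ε)) := by field_simp; ring
  rw [e5, Valuation.map_neg, map_div₀, hβε, div_lt_iff₀ (zero_lt_iff.mpr hνβ)]
  exact hνε

end norm

end Vale.Agent.P011.H211
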