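import Vale.Agent.P011.H211.SkAlg

/-!
The compositum of a cubic extension and a quadratic extension.
-/

open Module Polynomial
open scoped IntermediateField

namespace Vale.Agent.P011.H211

variable {k F : Type} [Field k] [CharZero k] [Field F] [Algebra k F]

omit [CharZero k] in
theorem isSquare_of_map (hF : finrank k F = 3) {H : k} (h : IsSquare (algebraMap k F H)) :
    IsSquare H := by
  obtain ⟨e, he⟩ := h
  by_cases h0 : H = 0
  · exact ⟨0, by rw [h0, mul_zero]⟩
  have h1 : H ^ 3 = Algebra.norm k e * Algebra.norm k e := by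
    rw [← map_mul, ← he, Algebra.norm_algebraMap, hF]
  refine ⟨Algebra.norm k e / H, ?_⟩
  field_simp
  linear_combination h1

omit [CharZero k] in
/-- Degrees over an extension generated by a square root. -/
theorem irred_of_not_square {H : k} (hH : ¬ IsSquare H) : Irreducible (X ^ 2 - C H : k[X]) := by
  refine (X_pow_sub_C_irreducible_iff_of_prime Nat.prime_two).mpr fun b hb => ?_
  exact hH ⟨b, by rw [← hb, pow_two]⟩

/-- The compositum of a cubic extension and of the quadratic extension generated by the square
root of `H`. -/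
theorem exists_quad (hF : finrank k F = 3) (H : k) (hH : ¬ IsSquare H) :
    ∃ (κ N : Type) (_ : Field κ) (_ : Field N) (_ : Algebra k κ) (_ : Algebra κ N)
      (_ : Algebra k N) (_ : IsScalarTower k κ N) (B : Bc k F κ N) (w : κ),
      w ^ 2 = algebraMap k κ H ∧ (∀ x : N, ∃ p q : F, x = B.φ p + algebraMap κ N w * B.φ q) ∧
      finrank k κ = 2 ∧ (∀ c : κ, ∃ a b : k, c = algebraMap k κ a + w * algebraMap k κ b) := by
  have hfd : FiniteDimensional k F := Module.finite_of_finrank_pos (by omega)
  have hHF : ¬ IsSquare (algebraMap k F H) := fun h => hH (isSquare_of_map hF h)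
  set Q : F[X] := X ^ 2 - C (algebraMap k F H) with hQ
  have hQi : Irreducible Q := irred_of_not_square hHF
  have hQm : Q.Monic := monic_X_pow_sub_C _ two_ne_zero
  have hQd : Q.natDegree = 2 := natDegree_X_pow_sub_C
  have hfact : Fact (Irreducible Q) := ⟨hQi⟩
  set N := AdjoinRoot Q with hN
  set s : N := AdjoinRoot.root Q with hs
  have hsq : s ^ 2 = algebraMap k N H := by
    have h1 := AdjoinRoot.aeval_eq (f := Q) Q
    rw [AdjoinRoot.mk_self, hQ, map_sub, map_pow, aeval_X, aeval_C, sub_eq_zero] at h1
    rw [hs, h1, IsScalarTower.algebraMap_apply k F N]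
  have hFN : finrank F N = 2 := by
    rw [(AdjoinRoot.powerBasis hQi.ne_zero).finrank, AdjoinRoot.powerBasis_dim, hQd]
  have hfdFN : FiniteDimensional F N := Module.finite_of_finrank_pos (by omega)
  have hfdN : FiniteDimensional k N := Module.Finite.trans F N
  have hkN : finrank k N = 6 := by
    rw [← finrank_mul_finrank k F N, hF, hFN]
  have hint : IsIntegral k s := Algebra.IsIntegral.isIntegral s
  have hmin : minpoly k s = X ^ 2 - C H := by
    refine (minpoly.eq_of_irreducible_of_monic (irred_of_not_square hH) ?_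
      (monic_X_pow_sub_C _ two_ne_zero)).symm
    rw [map_sub, map_pow, aeval_X, aeval_C, hsq, sub_self]
  set A : IntermediateField k N := k⟮s⟯ with hA
  have hkA : finrank k A = 2 := by
    rw [hA, IntermediateField.adjoin.finrank hint, hmin, natDegree_X_pow_sub_C]
  have hAN : finrank A N = 3 := by
    have := finrank_mul_finrank k A N
    rw [hkA, hkN] at this
    omega
  set φ : F →ₐ[k] N := IsScalarTower.toAlgHom k F N with hφ
  set B := φ.fieldRange with hB
  have hBk : finrank k B = 3 := by
    rw [← hF]; exact φ.equivFieldRange.symm.toLinearEquiv.finrank_eq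
  have hld : A.LinearDisjoint B := by
    apply IntermediateField.LinearDisjoint.of_finrank_coprime
    rw [hBk, hkA]; norm_num
  have htop : A ⊔ B = ⊤ := by
    have h1 := hld.finrank_sup
    rw [hBk, hkA] at h1
    apply IntermediateField.eq_of_le_of_finrank_eq le_top
    rw [h1, IntermediateField.finrank_top', hkN]
  have hnorm : ∀ e : F, Algebra.norm A (φ e) = algebraMap k A (Algebra.norm k e) := by
    intro e
    have h1 := hld.norm_algebraMap htop (φ.equivFieldRange e)
    rw [Algebra.norm_eq_of_algEquiv] at h1
    exact h1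
  set w : A := IntermediateField.AdjoinSimple.gen k s with hw
  have hwN : algebraMap A N w = s := IntermediateField.AdjoinSimple.algebraMap_gen k s
  have hw2 : w ^ 2 = algebraMap k A H := by
    apply (algebraMap A N).injective
    rw [map_pow, hwN, hsq, ← IsScalarTower.algebraMap_apply]
  refine ⟨A, N, inferInstance, inferInstance, inferInstance, inferInstance, inferInstance,
    inferInstance, ⟨φ, hF, hAN, hnorm⟩, w, hw2, ?_, hkA, ?_⟩
  · intro x
    obtain ⟨g, rfl⟩ := AdjoinRoot.mk_surjective x
    have h1 : AdjoinRoot.mk Q g = AdjoinRoot.mk Q (g %ₘ Q) := by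
      conv_lhs => rw [← modByMonic_add_div g Q]
      rw [map_add, map_mul, AdjoinRoot.mk_self, zero_mul, add_zero]
    have h2 : (g %ₘ Q).degree < 2 := by
      have := degree_modByMonic_lt g hQm
      rwa [degree_eq_natDegree hQi.ne_zero, hQd] at this
    have h3 := (g %ₘ Q).as_sum_range' 2 (by
      rcases eq_or_ne (g %ₘ Q) 0 with h0 | h0
      · rw [h0]; simp
      · exact (natDegree_lt_iff_degree_lt h0).mpr h2)
    rw [Finset.sum_range_succ, Finset.sum_range_one, ← C_mul_X_pow_eq_monomial,
      ← C_mul_X_pow_eq_monomial, pow_zero, mul_one, pow_one] at h3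
    refine ⟨(g %ₘ Q).coeff 0, (g %ₘ Q).coeff 1, ?_⟩
    rw [h1, h3, map_add, map_mul, hwN]
    simp only [AdjoinRoot.mk_C, AdjoinRoot.mk_X, coeff_add, coeff_C_mul, coeff_X, coeff_C]
    simp
    rw [mul_comm]
    rfl
  · intro c
    have hpb := (IntermediateField.adjoin.powerBasis hint).exists_eq_aeval' c
    obtain ⟨g, hg⟩ := hpb
    have hgen : (IntermediateField.adjoin.powerBasis hint).gen = w :=
      IntermediateField.adjoin.powerBasis_gen hint
    rw [hgen] at hg
    set P : k[X] := X ^ 2 - C H with hP
    have hPm : P.Monic := monic_X_pow_sub_C _ two_ne_zero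
    have h0 : aeval w P = 0 := by
      rw [hP, map_sub, map_pow, aeval_X, aeval_C, hw2, sub_self]
    have h1 : aeval w g = aeval w (g %ₘ P) := by
      conv_lhs => rw [← modByMonic_add_div g P]
      rw [map_add, map_mul, h0, zero_mul, add_zero]
    have h2 : (g %ₘ P).degree < 2 := by
      have := degree_modByMonic_lt g hPm
      rwa [degree_eq_natDegree hPm.ne_zero, hP, natDegree_X_pow_sub_C] at this
    have h3 := (g %ₘ P).as_sum_range' 2 (by
      rcases eq_or_ne (g %ₘ P) 0 with h0 | h0
      · rw [h0]; simp
      · exact (natDegree_lt_iff_degree_lt h0).mpr h2)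
    rw [Finset.sum_range_succ, Finset.sum_range_one, ← C_mul_X_pow_eq_monomial,
      ← C_mul_X_pow_eq_monomial, pow_zero, mul_one, pow_one] at h3
    refine ⟨(g %ₘ P).coeff 0, (g %ₘ P).coeff 1, ?_⟩
    rw [hg, h1]
    conv_lhs => rw [h3]
    rw [map_add, map_mul, aeval_C, aeval_C, aeval_X, mul_comm w]

end Vale.Agent.P011.H211
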