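import Vale.Agent.P011.H211.SkPt

/-!
Points of the Skolem equation over extensions, in coordinates.
-/

open Module Polynomial TensorProduct

namespace Vale.Agent.P011.H211

section coord

variable {k F : Type} [Field k] [Field F] [Algebra k F] (bas : Basis (Fin 3) k F)

/-- The matrix with coordinates `x` over an extension. -/
noncomputable def mx {L : Type} [Field L] [Algebra k L] (x : Fin 3 → L) : Matrix (Fin 3) (Fin 3) L :=
  ∑ i, x i • (Algebra.leftMulMatrix bas (bas i)).map (algebraMap k L)

/-- The matrix of an element of `F` over an extension. -/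
noncomputable def mA (L : Type) [Field L] [Algebra k L] (A : F) : Matrix (Fin 3) (Fin 3) L :=
  (Algebra.leftMulMatrix bas A).map (algebraMap k L)

/-- The left hand side of the Skolem equation. -/
noncomputable def Sc (A : F) (G : k) {L : Type} [Field L] [Algebra k L] (M : Matrix (Fin 3) (Fin 3) L) : L :=
  M.det + (mA bas L A * M).trace + algebraMap k L G

variable {L : Type} [Field L] [Algebra k L]

theorem lmm_tmul (A : F) : Algebra.leftMulMatrix (Algebra.TensorProduct.basis L bas) (1 ⊗ₜ A) =
    mA bas L A := by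
  ext a c
  rw [mA, Matrix.map_apply, Algebra.leftMulMatrix_eq_repr_mul, Algebra.leftMulMatrix_eq_repr_mul,
    Algebra.TensorProduct.basis_apply, Algebra.TensorProduct.tmul_mul_tmul, one_mul,
    Algebra.TensorProduct.basis_repr_tmul]
  simp

theorem lmm_eq (f : L ⊗[k] F) : Algebra.leftMulMatrix (Algebra.TensorProduct.basis L bas) f =
    mx bas (fun i => (Algebra.TensorProduct.basis L bas).repr f i) := by
  set basT := Algebra.TensorProduct.basis L bas with hbT
  conv_lhs => rw [← basT.sum_repr f, map_sum]
  refine Finset.sum_congr rfl fun i _ => ?_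
  rw [map_smul]
  congr 1
  rw [hbT, Algebra.TensorProduct.basis_apply]
  exact lmm_tmul bas (bas i)

/-- The matrix with coordinates `x` as the matrix of an element of `L ⊗ F`. -/
theorem mx_eq (x : Fin 3 → L) : ∃ f : L ⊗[k] F,
    Algebra.leftMulMatrix (Algebra.TensorProduct.basis L bas) f = mx bas x ∧
    ∀ i, (Algebra.TensorProduct.basis L bas).repr f i = x i := by
  set basT := Algebra.TensorProduct.basis L bas with hbT
  refine ⟨∑ i, x i • basT i, ?_, ?_⟩
  · rw [map_sum]
    refine Finset.sum_congr rfl fun i _ => ?_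
    rw [map_smul]
    congr 1
    rw [hbT, Algebra.TensorProduct.basis_apply]
    exact lmm_tmul bas (bas i)
  · intro i
    rw [basT.repr_sum_self]

theorem sc_eq (A : F) (G : k) (f : L ⊗[k] F) :
    Algebra.norm L f + Algebra.trace L (L ⊗[k] F) ((1 ⊗ₜ A) * f) + algebraMap k L G =
      Sc bas A G (Algebra.leftMulMatrix (Algebra.TensorProduct.basis L bas) f) := by
  rw [Algebra.norm_eq_matrix_det (Algebra.TensorProduct.basis L bas),
    Algebra.trace_eq_matrix_trace (Algebra.TensorProduct.basis L bas), map_mul, lmm_tmul, Sc]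

/-- Points of the Skolem equation in coordinates. -/
theorem pt_iff (A : F) (G : k) : (∃ f : L ⊗[k] F, Algebra.norm L f +
    Algebra.trace L (L ⊗[k] F) ((1 ⊗ₜ A) * f) + algebraMap k L G = 0) ↔
    ∃ x : Fin 3 → L, Sc bas A G (mx bas x) = 0 := by
  constructor
  · rintro ⟨f, hf⟩
    rw [sc_eq bas] at hf
    rw [lmm_eq] at hf
    exact ⟨_, hf⟩
  · rintro ⟨x, hx⟩
    obtain ⟨f, hf, -⟩ := mx_eq bas x
    refine ⟨f, ?_⟩
    rw [sc_eq bas, hf, hx]

theorem mx_k (y : Fin 3 → k) : mx bas (fun i => algebraMap k L (y i)) =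
    mA bas L (∑ i, y i • bas i) := by
  rw [mx, mA, map_sum]
  have h : (∑ i, (Algebra.leftMulMatrix bas) (y i • bas i)).map (algebraMap k L) =
      ∑ i, ((Algebra.leftMulMatrix bas) (y i • bas i)).map (algebraMap k L) := by
    ext a c
    simp [Matrix.sum_apply]
  rw [h]
  refine Finset.sum_congr rfl fun i _ => ?_
  rw [map_smul]
  ext a c
  simp

theorem mx_map {Ω : Type} [Field Ω] [Algebra k Ω] [Algebra L Ω] [IsScalarTower k L Ω]
    (x : Fin 3 → L) : (mx bas x).map (algebraMap L Ω) = mx bas (fun i => algebraMap L Ω (x i)) := by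
  rw [mx, mx]
  ext a c
  simp only [Matrix.map_apply, Matrix.sum_apply, Matrix.smul_apply, map_sum, smul_eq_mul, map_mul,
    ← IsScalarTower.algebraMap_apply k L Ω]

theorem mA_map {Ω : Type} [Field Ω] [Algebra k Ω] [Algebra L Ω] [IsScalarTower k L Ω]
    (A : F) : (mA bas L A).map (algebraMap L Ω) = mA bas Ω A := by
  ext a c
  simp only [mA, Matrix.map_apply, ← IsScalarTower.algebraMap_apply k L Ω]

end coord

section unit

variable {k F : Type} [Field k] [Field F] [Algebra k F] {L : Type} [Field L] [Algebra k L]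

theorem exists_notMem (hF : finrank k F = 3) : ∃ θ : F, θ ∉ (algebraMap k F).range := by
  by_contra hcon
  push Not at hcon
  have h2 := (LinearEquiv.ofBijective (Algebra.linearMap k F)
      ⟨(algebraMap k F).injective, fun x => hcon x⟩).finrank_eq
  rw [finrank_self, hF] at h2
  omega

theorem adjoin_eq (hF : finrank k F = 3) {x : F} (hx : x ∉ (algebraMap k F).range) :
    IntermediateField.adjoin k {x} = ⊤ := by
  have hfd : FiniteDimensional k F := Module.finite_of_finrank_pos (by omega)
  have hdvd : finrank k (IntermediateField.adjoin k {x}) ∣ 3 := by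
    rw [← hF]
    exact ⟨_, (finrank_mul_finrank k (IntermediateField.adjoin k {x}) F).symm⟩
  rcases (Nat.dvd_prime Nat.prime_three).mp hdvd with h | h
  · exfalso
    rw [IntermediateField.finrank_eq_one_iff] at h
    have h2 := IntermediateField.mem_adjoin_simple_self k x
    rw [h, IntermediateField.mem_bot] at h2
    exact hx h2
  · exact IntermediateField.eq_of_le_of_finrank_eq le_top
      (by rw [h, IntermediateField.finrank_top', hF])

theorem adjoin_top (hF : finrank k F = 3) {x : F} (hx : x ∉ (algebraMap k F).range) (y : F) :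
    ∃ q : k[X], aeval x q = y := by
  have hfd : FiniteDimensional k F := Module.finite_of_finrank_pos (by omega)
  have hint : IsIntegral k x := Algebra.IsIntegral.isIntegral x
  have h2 : y ∈ IntermediateField.adjoin k {x} := by rw [adjoin_eq hF hx]; trivial
  rw [← IntermediateField.mem_toSubalgebra,
    IntermediateField.adjoin_simple_toSubalgebra_of_isAlgebraic hint.isAlgebraic,
    Algebra.adjoin_singleton_eq_range_aeval] at h2
  exact h2

/-- A root of the characteristic polynomial gives a point (after helper672). -/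
theorem point_of_root (hF : finrank k F = 3) {x : F} (hx : x ∉ (algebraMap k F).range) {y : L}
    {P : k[X]} (hP : P.Monic) (hd : P.natDegree = 3) (h0 : aeval x P = 0) (hy : aeval y P = 0) :
    Nonempty (F →ₐ[k] L) := by
  have hfd : FiniteDimensional k F := Module.finite_of_finrank_pos (by omega)
  have hint : IsIntegral k x := Algebra.IsIntegral.isIntegral x
  have h1 := adjoin_eq hF hx
  have h2 : (minpoly k x).natDegree = 3 := by
    rw [← IntermediateField.adjoin.finrank hint, h1, IntermediateField.finrank_top', hF]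
  have h3 : P = minpoly k x := by
    refine (eq_of_monic_of_dvd_of_natDegree_le (minpoly.monic hint) hP (minpoly.dvd k x h0) ?_)
    rw [hd, h2]
  rw [h3] at hy
  have e1 := (IntermediateField.adjoinRootEquivAdjoin k hint).symm
  have f1 : AdjoinRoot (minpoly k x) →ₐ[k] L := AdjoinRoot.liftAlgHom _ (Algebra.ofId k L) y (by
    rw [← hy]; rfl)
  have e2 : F ≃ₐ[k] (IntermediateField.adjoin k {x} : IntermediateField k F) :=
    IntermediateField.topEquiv.symm.trans (IntermediateField.equivOfEq h1.symm)
  exact ⟨f1.comp (e1.toAlgHom.comp e2.toAlgHom)⟩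

/-- If `F` has no point over `L`, then `L ⊗ F` has no zero divisors. -/
theorem isUnit_of_ne (hF : finrank k F = 3) (hno : ¬ Nonempty (F →ₐ[k] L)) {f : L ⊗[k] F}
    (hf : f ≠ 0) : IsUnit f := by
  have hfd : FiniteDimensional k F := Module.finite_of_finrank_pos (by omega)
  obtain ⟨θ, hθ⟩ := exists_notMem hF
  let b : Basis (Fin 3) k F := Module.finBasisOfFinrankEq k F hF
  set P := (Algebra.leftMulMatrix b θ).charpoly with hP
  have hPm : P.Monic := Matrix.charpoly_monic _
  have hPd : P.natDegree = 3 := by
    rw [hP, Matrix.charpoly_natDegree_eq_dim]; simp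
  have hP0 : aeval θ P = 0 := by
    have h5 := Matrix.aeval_self_charpoly (Algebra.leftMulMatrix b θ)
    rw [Polynomial.aeval_algHom_apply] at h5
    exact Algebra.leftMulMatrix_injective b (by rw [h5, map_zero])
  have hroot : ∀ y : L, aeval y P ≠ 0 := fun y hy => hno (point_of_root hF hθ hPm hPd hP0 hy)
  set P' := P.map (algebraMap k L) with hP'
  have hPm' : P'.Monic := hPm.map _
  have hPd' : P'.natDegree = 3 := by rw [hP', hPm.natDegree_map, hPd]
  have hirr : Irreducible P' := by
    rw [hPm'.irreducible_iff_roots_eq_zero_of_degree_le_three (by omega) (by omega),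
      Multiset.eq_zero_iff_forall_notMem]
    intro y hy
    rw [mem_roots hPm'.ne_zero, IsRoot.def, hP', eval_map_algebraMap] at hy
    exact hroot y hy
  set ξ : L ⊗[k] F := 1 ⊗ₜ θ with hξ
  have hsurj : ∀ g : L ⊗[k] F, ∃ Q : L[X], aeval ξ Q = g := by
    intro g
    induction g using TensorProduct.induction_on with
    | zero => exact ⟨0, map_zero _⟩
    | add x y hx hy =>
      obtain ⟨Q, hQ⟩ := hx
      obtain ⟨Q', hQ'⟩ := hy
      exact ⟨Q + Q', by rw [map_add, hQ, hQ']⟩
    | tmul l y =>
      obtain ⟨q, hq⟩ := adjoin_top hF hθ y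
      refine ⟨C l * q.map (algebraMap k L), ?_⟩
      have h1 : aeval ξ q = (1 : L) ⊗ₜ[k] y := by
        have h2 : ξ = (Algebra.TensorProduct.includeRight : F →ₐ[k] L ⊗[k] F) θ := rfl
        rw [h2, Polynomial.aeval_algHom_apply, hq]
        rfl
      rw [map_mul, aeval_C, aeval_map_algebraMap, h1, Algebra.TensorProduct.algebraMap_apply,
        Algebra.TensorProduct.tmul_mul_tmul]
      simp
  have hP1 : aeval ξ P' = 0 := by
    have h2 : ξ = (Algebra.TensorProduct.includeRight : F →ₐ[k] L ⊗[k] F) θ := rfl
    rw [hP', aeval_map_algebraMap, h2, Polynomial.aeval_algHom_apply, hP0, map_zero]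
  obtain ⟨Q, hQ⟩ := hsurj f
  rcases hirr.isCoprime_or_dvd Q with h | ⟨Q', h⟩
  · obtain ⟨u, w, huw⟩ := h
    have h3 := congrArg (aeval ξ) huw
    rw [map_add, map_mul, map_mul, hP1, mul_zero, zero_add, map_one, hQ] at h3
    exact IsUnit.of_mul_eq_one_right _ h3
  · exfalso
    apply hf
    rw [← hQ, h, map_mul, hP1, zero_mul]

/-- The norm form of `F` is anisotropic over `L`. -/
theorem mx_det_ne (hF : finrank k F = 3) (hno : ¬ Nonempty (F →ₐ[k] L)) (bas : Basis (Fin 3) k F)
    {x : Fin 3 → L} (hx : x ≠ 0) : (mx bas x).det ≠ 0 := by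
  obtain ⟨f, hf, hr⟩ := mx_eq bas x
  have hf0 : f ≠ 0 := by
    rintro rfl
    apply hx
    funext i
    rw [← hr i, map_zero]
    rfl
  have h1 := (isUnit_of_ne hF hno hf0).map (Algebra.norm L)
  rw [Algebra.norm_eq_matrix_det (Algebra.TensorProduct.basis L bas), hf] at h1
  exact h1.ne_zero

end unit

end Vale.Agent.P011.H211
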